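import Vale.Agent.P167.N.Kit
import Vale.Agent.P167.H542.Q.Wt

/-!
# P167, `0 < q < 1` (N-version of `H542/Q/Wt.lean`): weights `cos (θ + t) / cos θ` with complex
masses `t`, for every loop phase `0 ≤ m < π / 2`

The numbers `1 / 10` (size of the masses of the small loops) and `26` of the original are replaced by
`thr m` and `cN m`. Every lemma is stated twice: for `m < π / 2` (names with `_lt`), and for `Ang m`.
-/

set_option autoImplicit false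

namespace Vale.Agent.P167.N.H542.Q

open Vale.Agent.P167 Vale.Agent.P167.BR Vale.Agent.P167.H542 Vale.Agent.P167.H542.Q

/-- The size of the masses of the small loops (replaces `1 / 10`). -/
noncomputable def thr (m : ℝ) : ℝ := 1 / (10 * (1 + Real.tan m))

/-- The constant of the second order term (replaces `26`). -/
noncomputable def cN (m : ℝ) : ℝ :=
  (1 + Real.tan m) ^ 2 + (1 + Real.tan m) * Real.exp (Real.tan m)

theorem cos_pos_of_lt {m : ℝ} (h0 : 0 ≤ m) (h1 : m < Real.pi / 2) : 0 < Real.cos m :=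
  Real.cos_pos_of_mem_Ioo ⟨by linarith [Real.pi_pos], h1⟩

theorem tan_nonneg_lt {m : ℝ} (h0 : 0 ≤ m) (h1 : m < Real.pi / 2) : 0 ≤ Real.tan m :=
  Real.tan_nonneg_of_nonneg_of_le_pi_div_two h0 h1.le

theorem thr_pos_lt {m : ℝ} (h0 : 0 ≤ m) (h1 : m < Real.pi / 2) : 0 < thr m := by
  have := tan_nonneg_lt h0 h1
  unfold thr
  positivity

theorem thr_le_lt {m : ℝ} (h0 : 0 ≤ m) (h1 : m < Real.pi / 2) : thr m ≤ 1 / 10 := by
  have := tan_nonneg_lt h0 h1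
  unfold thr
  rw [div_le_div_iff₀ (by positivity) (by norm_num)]
  linarith

theorem tan_thr_lt {m : ℝ} (h0 : 0 ≤ m) (h1 : m < Real.pi / 2) :
    (1 + Real.tan m) * thr m = 1 / 10 := by
  have := tan_nonneg_lt h0 h1
  unfold thr
  field_simp

theorem cN_pos_lt {m : ℝ} (h0 : 0 ≤ m) (h1 : m < Real.pi / 2) : 0 < cN m := by
  have := tan_nonneg_lt h0 h1
  unfold cN
  positivity

theorem cN_ge_lt {m : ℝ} (h0 : 0 ≤ m) (h1 : m < Real.pi / 2) : 1 ≤ cN m := by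
  have := tan_nonneg_lt h0 h1
  have := Real.exp_pos (Real.tan m)
  unfold cN
  nlinarith [mul_nonneg (by linarith : 0 ≤ 1 + Real.tan m) this.le]

theorem wC_sub_lt {m : ℝ} (h0 : 0 ≤ m) (h1 : m < Real.pi / 2) {t : ℂ} (ht : ‖t‖ ≤ 1) :
    ‖wC m t - (1 - (Real.tan m : ℝ) * t)‖ ≤ (1 + Real.tan m) * ‖t‖ ^ 2 := by
  have h30 := tan_nonneg_lt h0 h1
  set τ := Real.tan m with hτ
  have e1 : ‖t * Complex.I‖ = ‖t‖ := by simp
  have e2 : ‖-t * Complex.I‖ = ‖t‖ := by simp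
  have h1' := Complex.norm_exp_sub_one_sub_id_le (x := t * Complex.I) (by rw [e1]; exact ht)
  have h2 := Complex.norm_exp_sub_one_sub_id_le (x := -t * Complex.I) (by rw [e2]; exact ht)
  rw [e1] at h1'
  rw [e2] at h2
  have hI : Complex.I * Complex.I = -1 := Complex.I_mul_I
  set r1 := Complex.exp (t * Complex.I) - 1 - t * Complex.I with hr1
  set r2 := Complex.exp (-t * Complex.I) - 1 - -t * Complex.I with hr2
  have e : wC m t - (1 - (τ : ℝ) * t) = (r1 + r2) / 2 - (τ : ℝ) * ((r2 - r1) * Complex.I / 2) := by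
    rw [wC_eq (cos_pos_of_lt h0 h1).ne', Complex.cos, Complex.sin, hr1, hr2]
    linear_combination (τ : ℝ) * t * hI
  rw [e]
  have g1 : ‖(r1 + r2) / 2‖ ≤ ‖t‖ ^ 2 := by
    rw [norm_div, Complex.norm_ofNat, div_le_iff₀ (by norm_num)]
    refine (norm_add_le _ _).trans ?_
    linarith
  have g2 : ‖((τ : ℝ) : ℂ) * ((r2 - r1) * Complex.I / 2)‖ ≤ τ * ‖t‖ ^ 2 := by
    rw [norm_mul, Complex.norm_real, Real.norm_of_nonneg h30, norm_div, norm_mul, Complex.norm_I,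
      mul_one, Complex.norm_ofNat]
    refine mul_le_mul_of_nonneg_left ?_ h30
    rw [div_le_iff₀ (by norm_num)]
    refine (norm_sub_le _ _).trans ?_
    linarith
  refine (norm_sub_le _ _).trans ?_
  linarith

theorem wC_near_lt {m : ℝ} (h0 : 0 ≤ m) (h1 : m < Real.pi / 2) {t : ℂ} (ht : ‖t‖ ≤ 1) :
    ‖wC m t‖ ≤ Real.exp (-Real.tan m * t.re + cN m * ‖t‖ ^ 2) := by
  have h30 := tan_nonneg_lt h0 h1
  have h := wC_sub_lt h0 h1 ht
  unfold cN
  set τ := Real.tan m with hτ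
  have hre : |t.re| ≤ 1 := (Complex.abs_re_le_norm t).trans ht
  rw [abs_le] at hre
  set x := t.re with hx
  set q := ‖t‖ ^ 2 with hq
  have hq0 : 0 ≤ q := sq_nonneg _
  have h1 : ‖1 - (τ : ℝ) * t‖ ^ 2 = 1 - 2 * τ * x + τ ^ 2 * q := by
    rw [hq, ← Complex.normSq_eq_norm_sq, ← Complex.normSq_eq_norm_sq, Complex.normSq_apply,
      Complex.normSq_apply]
    simp only [Complex.sub_re, Complex.one_re, Complex.mul_re, Complex.ofReal_re,
      Complex.ofReal_im, zero_mul, sub_zero, Complex.sub_im, Complex.one_im, Complex.mul_im,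
      add_zero, zero_sub]
    rw [← hx]
    ring
  have h2 : ‖1 - (τ : ℝ) * t‖ ≤ Real.exp (-τ * x + τ ^ 2 / 2 * q) := by
    refine abs_le_of_sq_le_sq' ?_ (Real.exp_pos _).le |>.2
    rw [h1, ← Real.exp_nat_mul]
    have := Real.add_one_le_exp (((2 : ℕ) : ℝ) * (-τ * x + τ ^ 2 / 2 * q))
    push_cast at this ⊢
    linarith
  set E := Real.exp (-τ * x + τ ^ 2 / 2 * q) with hE
  have hE0 : 0 < E := Real.exp_pos _
  -- `1 ≤ exp τ * E`
  have h4 : 1 ≤ Real.exp τ * E := by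
    rw [hE, ← Real.exp_add]
    refine Real.one_le_exp ?_
    have : 0 ≤ τ ^ 2 / 2 * q := by positivity
    nlinarith
  have h10 : ‖wC m t‖ ≤ E + (1 + τ) * q := by
    have e : wC m t = (1 - (τ : ℝ) * t) + (wC m t - (1 - (τ : ℝ) * t)) := by ring
    rw [e]
    exact (norm_add_le _ _).trans (add_le_add h2 h)
  have h11 := Real.add_one_le_exp ((1 + τ) * Real.exp τ * q)
  calc ‖wC m t‖ ≤ E + (1 + τ) * q := h10
    _ ≤ E * ((1 + τ) * Real.exp τ * q + 1) := by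
        have h5 : (1 + τ) * q * 1 ≤ (1 + τ) * q * (Real.exp τ * E) :=
          mul_le_mul_of_nonneg_left h4 (by positivity)
        linarith
    _ ≤ E * Real.exp ((1 + τ) * Real.exp τ * q) := mul_le_mul_of_nonneg_left h11 hE0.le
    _ = Real.exp (-τ * x + τ ^ 2 / 2 * q + (1 + τ) * Real.exp τ * q) := by
        rw [hE, ← Real.exp_add]
    _ ≤ _ := Real.exp_le_exp.2 (by
        have h6 : τ ^ 2 / 2 * q ≤ (1 + τ) ^ 2 * q :=
          mul_le_mul_of_nonneg_right (by nlinarith) hq0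
        nlinarith)

theorem wC_lower_lt {m : ℝ} (h0 : 0 ≤ m) (h1 : m < Real.pi / 2) {t : ℂ} (ht : ‖t‖ ≤ thr m) :
    1 / 2 ≤ ‖wC m t‖ := by
  have h30 := tan_nonneg_lt h0 h1
  have h4 := thr_le_lt h0 h1
  have h5 := tan_thr_lt h0 h1
  have h6 := thr_pos_lt h0 h1
  have h := wC_sub_lt h0 h1 (t := t) (by linarith)
  have h0' := norm_nonneg t
  set τ := Real.tan m with hτ
  have h1' : ‖(1 : ℂ)‖ - ‖((τ : ℝ) : ℂ) * t‖ ≤ ‖1 - (τ : ℝ) * t‖ := norm_sub_norm_le _ _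
  rw [norm_one, norm_mul, Complex.norm_real, Real.norm_of_nonneg h30] at h1'
  have h2 : ‖1 - (τ : ℝ) * t‖ ≤ ‖wC m t‖ + ‖wC m t - (1 - (τ : ℝ) * t)‖ := by
    have e : 1 - (τ : ℝ) * t = wC m t - (wC m t - (1 - (τ : ℝ) * t)) := by ring
    conv_lhs => rw [e]
    exact norm_sub_le _ _
  have h7 : (1 + τ) * ‖t‖ ≤ 1 / 10 := by
    rw [← h5]
    exact mul_le_mul_of_nonneg_left ht (by positivity)
  have h8 : (1 + τ) * ‖t‖ ^ 2 ≤ 1 / 10 * ‖t‖ := by
    have : (1 + τ) * ‖t‖ ^ 2 = (1 + τ) * ‖t‖ * ‖t‖ := by ring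
    rw [this]
    exact mul_le_mul_of_nonneg_right h7 h0'
  nlinarith

/-! ### The same for `Ang m` -/

variable {m : ℝ}

theorem cos_pos_of (h0 : 0 ≤ m) (h1 : Ang m) : 0 < Real.cos m := cos_pos_of_lt h0 h1.lt

theorem tan_nonneg (h0 : 0 ≤ m) (h1 : Ang m) : 0 ≤ Real.tan m := tan_nonneg_lt h0 h1.lt

theorem thr_pos (h0 : 0 ≤ m) (h1 : Ang m) : 0 < thr m := thr_pos_lt h0 h1.lt

theorem thr_le (h0 : 0 ≤ m) (h1 : Ang m) : thr m ≤ 1 / 10 := thr_le_lt h0 h1.lt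

theorem tan_thr (h0 : 0 ≤ m) (h1 : Ang m) : (1 + Real.tan m) * thr m = 1 / 10 :=
  tan_thr_lt h0 h1.lt

theorem cN_pos (h0 : 0 ≤ m) (h1 : Ang m) : 0 < cN m := cN_pos_lt h0 h1.lt

theorem cN_ge (h0 : 0 ≤ m) (h1 : Ang m) : 1 ≤ cN m := cN_ge_lt h0 h1.lt

theorem wC_sub (h0 : 0 ≤ m) (h1 : Ang m) {t : ℂ} (ht : ‖t‖ ≤ 1) :
    ‖wC m t - (1 - (Real.tan m : ℝ) * t)‖ ≤ (1 + Real.tan m) * ‖t‖ ^ 2 := wC_sub_lt h0 h1.lt ht

theorem wC_near (h0 : 0 ≤ m) (h1 : Ang m) {t : ℂ} (ht : ‖t‖ ≤ 1) :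
    ‖wC m t‖ ≤ Real.exp (-Real.tan m * t.re + cN m * ‖t‖ ^ 2) := wC_near_lt h0 h1.lt ht

theorem wC_lower (h0 : 0 ≤ m) (h1 : Ang m) {t : ℂ} (ht : ‖t‖ ≤ thr m) :
    1 / 2 ≤ ‖wC m t‖ := wC_lower_lt h0 h1.lt ht

end Vale.Agent.P167.N.H542.Q
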