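import Vale.Agent.P167.N.Kit
import Vale.Agent.P167.N.H436.ND.Defs
import Vale.Agent.P167.N.H542.Q.Pc
import Vale.Agent.P167.N.Wd
import Vale.Agent.P167.H542.Q.PW

/-! generated from Vale.Agent.P167.H542.Q.PW (q < 1 port) -/

set_option autoImplicit false

open Finset

namespace Vale.Agent.P167.N.H542.Q.PW

open Vale.Agent.P167.H542.Q.PW Vale.Agent.P167.H542.Q Vale.Agent.P167.H542

open Vale.Agent.P167 Vale.Agent.P167.BR Vale.Agent.P167.H542 Vale.Agent.P167.H542.Q

open Vale.Agent.P167.H542.Q.PT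

open Vale.Agent.P167.H562.SML (smf mem_smf)

open Vale.Agent.P167.H562.MAJ (Sm)

open Vale.Agent.P167.H562.QM (MajA)

open Vale.Agent.P167.H436.ND (Rng Ft)

open Vale.Agent.P167.H45 (vs_nonempty)

variable {θ c M : ℝ}

theorem cos_ne (h0 : 0 ≤ θ) (h1 : Ang θ) : Real.cos θ ≠ 0 := (cos_pos_of h0 h1).ne'

theorem wR_pos (h0 : 0 ≤ θ) (h1 : Ang θ) {t : ℝ} (ht : |t| ≤ dw θ) : 0 < wR θ t :=
  div_pos (cos_add_pos h0 h1.lt ht) (cos_pos_of h0 h1)

theorem wR_le_exp (h0 : 0 ≤ θ) (h1 : Ang θ) {t : ℝ} (ht : |t| ≤ dw θ) :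
    wR θ t ≤ Real.exp (-(Real.tan θ * t)) := cos_le_exp h0 h1.lt ht

theorem exp_le_wR (h0 : 0 ≤ θ) (h1 : Ang θ) {t : ℝ} (ht : |t| ≤ dw θ) :
    Real.exp (-(Real.tan θ * t) - kw θ * t ^ 2) ≤ wR θ t := exp_le_cos h0 h1.lt ht

variable {D : Finset (ℤ × ℤ)} {th : Finset Ed → ℝ} {p : ℤ × ℤ} {m : ℕ}
  {Z : Fin m → Finset (ℤ × ℤ)} {K : Fin m → Set (ℤ × ℤ)} {d : Fin m → ℝ} {f : Fin m → ℤ × ℤ → ℝ}
  {E : ℤ × ℤ → ℝ} {ω : Cfg} {A : Finset Ed}

/-- The weight of a small loop which visits a zone. -/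
theorem w_loop (h : Phs θ c D th) (hR : Rng D p Z K d) (hf : ∀ i z, f i z ≠ 0 → z ∈ K i)
    {i : Fin m} (hA : A ∈ pcs ω D) (hl : IsLp D A) (hs : Small (d i) A) {e : Ed} (he : e ∈ A)
    (h1 : hdv e ∈ Z i) (hE : mass D p E A = 0) :
    wR (th A) (mass D p (Ft (fun _ => 1) f E) A) = wR θ (G (f i) A) := by
  rw [mass_Ft, hE, add_zero, h.lp A hl]
  congr 1
  rw [Finset.sum_eq_single i]
  · exact mass_bump hR (hf i) hA hl
  · intro j _ hj
    rw [mass_bump hR (hf j) hA hl]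
    exact G_other hR (fun h => hj h.symm) (hf j) hA hl hs he h1
  · intro h; exact absurd (Finset.mem_univ i) h

open Classical in
/-- The product of the weights of the small pieces. -/
theorem prod_small (h : Phs θ c D th) (hR : Rng D p Z K d) (hf : ∀ i z, f i z ≠ 0 → z ∈ K i)
    (hH : ∀ A ∈ pcs ω D, (∃ i, Vz (Z i) A ∧ Small (d i) A) → mass D p E A = 0 ∧
      (¬ IsLp D A → mass D p (Ft (fun _ => 1) f E) A = 0)) :
    ∏ A ∈ (pcs ω D).filter (fun A => ∃ i, Vz (Z i) A ∧ Small (d i) A),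
      wR (th A) (mass D p (Ft (fun _ => 1) f E) A) =
    ∏ i, ∏ A ∈ snk (K i) (d i) D ω, wR θ (G (f i) A) := by
  have hcs : ∀ A, Real.cos (th A) ≠ 0 := fun A => (h.c0.trans_le (h.cs A)).ne'
  have hc : Real.cos θ ≠ 0 := cos_ne h.m0 h.m1
  have hspec : ∀ i, ∀ A ∈ snk (K i) (d i) D ω, A ∈ pcs ω D ∧ Small (d i) A ∧ IsLp D A ∧
      ∃ e ∈ A, hdv e ∈ Z i := by
    intro i A hA
    have hpos := hR.pos i
    obtain ⟨h1, h2, h3, -, -, h4⟩ := snk_spec (hR.geo i) (by linarith) hA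
    exact ⟨h1, h2, h4, vs_of_nr hR h3⟩
  have hdisj : ∀ i ∈ (Finset.univ : Finset (Fin m)), ∀ j ∈ (Finset.univ : Finset (Fin m)), i ≠ j →
      Disjoint (snk (K i) (d i) D ω) (snk (K j) (d j) D ω) := by
    intro i _ j _ hij
    rw [Finset.disjoint_left]
    intro A hA hA'
    obtain ⟨-, h2, -, e, he, h3⟩ := hspec i A hA
    obtain ⟨-, -, -, e', he', h4⟩ := hspec j A hA'
    exact not_vs hR hij h2 he h3 he' h4
  calc ∏ A ∈ (pcs ω D).filter (fun A => ∃ i, Vz (Z i) A ∧ Small (d i) A),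
        wR (th A) (mass D p (Ft (fun _ => 1) f E) A)
      = ∏ A ∈ Finset.univ.biUnion (fun i => snk (K i) (d i) D ω),
        wR (th A) (mass D p (Ft (fun _ => 1) f E) A) := by
        symm
        refine Finset.prod_subset ?_ ?_
        · intro A hA
          obtain ⟨i, -, hi⟩ := Finset.mem_biUnion.1 hA
          obtain ⟨h1, h2, -, e, he, h3⟩ := hspec i A hi
          exact Finset.mem_filter.2 ⟨h1, i, vz_of he h3, h2⟩
        · intro A hA hA'
          obtain ⟨h1, i, hv, hs⟩ := Finset.mem_filter.1 hA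
          obtain ⟨hE, hst⟩ := hH A h1 ⟨i, hv, hs⟩
          by_cases hl : IsLp D A
          · obtain ⟨e, he, h2⟩ := exists_vs (hR.sub i) h1 hv
            rw [w_loop h hR hf h1 hl hs he h2 hE]
            have h0 : G (f i) A = 0 := by
              by_contra hne
              apply hA'
              have hpos := hR.pos i
              refine Finset.mem_biUnion.2 ⟨i, Finset.mem_univ i, ?_⟩
              exact mem_snk_of (hR.geo i) (by linarith) (hR.wide i) (fun z hz => by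
                by_contra hcon
                exact hz (hf i z hcon)) (IsLp.isLoop h1 hl) hs hne
            rw [h0, wR_zero hc]
          · rw [hst hl, wR_zero (hcs A)]
    _ = ∏ i, ∏ A ∈ snk (K i) (d i) D ω, wR (th A) (mass D p (Ft (fun _ => 1) f E) A) :=
        Finset.prod_biUnion hdisj
    _ = _ := by
        refine Finset.prod_congr rfl fun i _ => Finset.prod_congr rfl fun A hA => ?_
        obtain ⟨h1, h2, hl, e, he, h3⟩ := hspec i A hA
        exact w_loop h hR hf h1 hl h2 he h3 (hH A h1 ⟨i, vz_of he h3, h2⟩).1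

/-- **(PW)** -/
theorem s_PW : Vale.Agent.P167.N.H436.ND.S_PW := by
  classical
  intro θ c D th p h m Z K d hR f E hf ω hsm hH N hN M hM1 hMc
  have hτ := tan_nonneg h.m0 h.m1
  set w : Finset Ed → ℝ := fun A => wR (th A) (mass D p (Ft (fun _ => 1) f E) A) with hw
  set vis := (pcs ω D).filter (fun A => ∃ i, Vz (Z i) A) with hvis
  have hsplit : ∏ A ∈ vis, w A =
      (∏ A ∈ vis.filter (fun A => ¬ ∃ i, Vz (Z i) A ∧ Small (d i) A), w A) *
      ∏ i, ∏ A ∈ snk (K i) (d i) D ω, wR θ (G (f i) A) := by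
    rw [← prod_small h hR hf hH, ← Finset.prod_filter_mul_prod_filter_not vis
      (fun A => ∃ i, Vz (Z i) A ∧ Small (d i) A), mul_comm]
    congr 1
    refine Finset.prod_congr ?_ fun _ _ => rfl
    rw [hvis, Finset.filter_filter]
    refine Finset.filter_congr fun A _ => ?_
    constructor
    · exact fun h1 => h1.2
    · exact fun h1 => ⟨h1.imp fun i h2 => h2.1, h1⟩
  set big := vis.filter (fun A => ¬ ∃ i, Vz (Z i) A ∧ Small (d i) A) with hbig
  -- the number of the big pieces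
  have hcard : big.card ≤ ∑ i, N i := by
    have hsub : big ⊆ Finset.univ.biUnion fun i =>
        (pcs ω D).filter (fun A => Vz (Z i) A ∧ ¬ Small (d i) A) := by
      intro A hA
      obtain ⟨h1, h2⟩ := Finset.mem_filter.1 hA
      obtain ⟨h3, i, h4⟩ := Finset.mem_filter.1 h1
      exact Finset.mem_biUnion.2 ⟨i, Finset.mem_univ i, Finset.mem_filter.2
        ⟨h3, h4, fun h5 => h2 ⟨i, h4, h5⟩⟩⟩
    refine (Finset.card_le_card hsub).trans (Finset.card_biUnion_le.trans ?_)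
    refine Finset.sum_le_sum fun i _ => ?_
    refine hN i _ (fun γ hγ => isSeg_piece (Finset.mem_filter.1 hγ).1) ?_ ?_
    · intro γ hγ γ' hγ' hne
      rw [Finset.disjoint_left]
      intro e he he'
      exact hne (eq_of_mem_pcs (Finset.mem_filter.1 hγ).1 (Finset.mem_filter.1 hγ').1 he he')
    · intro γ hγ
      obtain ⟨h1, h2, h3⟩ := Finset.mem_filter.1 hγ
      refine ⟨exists_vs (hR.sub i) h1 h2, ?_⟩
      unfold Small at h3
      push Not at h3
      obtain ⟨u, hu, v, hv, h4⟩ := h3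
      obtain ⟨e1, he1, rfl⟩ := Finset.mem_image.1 hu
      obtain ⟨e2, he2, rfl⟩ := Finset.mem_image.1 hv
      exact ⟨e1, he1, e2, he2, h4⟩
  have hM0 : 0 < M := by linarith
  have hspec : ∀ i, ∀ A ∈ snk (K i) (d i) D ω, |G (f i) A| ≤ dw θ := by
    intro i A hA
    have hpos := hR.pos i
    obtain ⟨-, h2, -, h3, -, -⟩ := snk_spec (hR.geo i) (by linarith) hA
    exact hsm i A h3 h2
  have hnn : ∀ i, 0 ≤ ∏ A ∈ snk (K i) (d i) D ω, wR θ (G (f i) A) := fun i =>
    Finset.prod_nonneg fun A hA => by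
      exact (wR_pos h.m0 h.m1 (hspec i A hA)).le
  rw [hsplit]
  constructor
  · rw [abs_mul, abs_of_nonneg (Finset.prod_nonneg fun i _ => hnn i), Finset.prod_mul_distrib,
      Finset.prod_pow_eq_pow_sum]
    refine mul_le_mul ?_ ?_ (Finset.prod_nonneg fun i _ => hnn i) (by positivity)
    · have h1 : |∏ A ∈ big, w A| ≤ M ^ big.card := prod_le_pow big fun A _ =>
        (abs_wR_le h.c0 (h.cs A) _).trans hMc
      exact h1.trans (pow_le_pow_right₀ hM1 hcard)
    · refine Finset.prod_le_prod (fun i _ => hnn i) fun i _ => ?_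
      calc ∏ A ∈ snk (K i) (d i) D ω, wR θ (G (f i) A)
          ≤ ∏ A ∈ snk (K i) (d i) D ω, Real.exp (-(Real.tan θ * G (f i) A)) := by
            refine Finset.prod_le_prod (fun A hA => ?_) fun A hA => ?_
            · exact (wR_pos h.m0 h.m1 (hspec i A hA)).le
            · exact wR_le_exp h.m0 h.m1 (hspec i A hA)
        _ = Real.exp (-(Real.tan θ * Sm (f i) (d i) ω)) := by
            rw [← Real.exp_sum, Finset.sum_neg_distrib, ← Finset.mul_sum, (sum_Sm hR hf i).1]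
  · intro hlow
    rw [Finset.prod_mul_distrib, Finset.prod_pow_eq_pow_sum]
    have hMi0 : 0 < M⁻¹ := inv_pos.2 hM0
    have hMi1 : M⁻¹ ≤ 1 := inv_le_one_of_one_le₀ hM1
    refine mul_le_mul ?_ ?_ (Finset.prod_nonneg fun i _ => (Real.exp_pos _).le) ?_
    · calc M⁻¹ ^ (∑ i, N i) ≤ M⁻¹ ^ big.card := pow_le_pow_of_le_one hMi0.le hMi1 hcard
        _ = ∏ _A ∈ big, M⁻¹ := by rw [Finset.prod_const]
        _ ≤ ∏ A ∈ big, w A := by
            refine Finset.prod_le_prod (fun _ _ => hMi0.le) fun A hA => ?_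
            obtain ⟨h1, h2⟩ := Finset.mem_filter.1 hA
            obtain ⟨h3, i, h4⟩ := Finset.mem_filter.1 h1
            exact hlow A h3 ⟨i, h4, fun h5 => h2 ⟨i, h4, h5⟩⟩
    · refine Finset.prod_le_prod (fun i _ => (Real.exp_pos _).le) fun i _ => ?_
      calc Real.exp (-(Real.tan θ * Sm (f i) (d i) ω) -
            kw θ * ∑ ℓ ∈ smf (Z i) (d i) ω, (G (f i) ℓ) ^ 2)
          = ∏ A ∈ snk (K i) (d i) D ω,
              Real.exp (-(Real.tan θ * G (f i) A) - kw θ * (G (f i) A) ^ 2) := by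
            rw [← Real.exp_sum, Finset.sum_sub_distrib, Finset.sum_neg_distrib, ← Finset.mul_sum,
              ← Finset.mul_sum, (sum_Sm hR hf i).1, (sum_Sm hR hf i).2]
        _ ≤ _ := Finset.prod_le_prod (fun _ _ => (Real.exp_pos _).le) fun A hA =>
            exp_le_wR h.m0 h.m1 (hspec i A hA)
    · refine Finset.prod_nonneg fun A hA => ?_
      obtain ⟨h1, h2⟩ := Finset.mem_filter.1 hA
      obtain ⟨h3, i, h4⟩ := Finset.mem_filter.1 h1
      exact hMi0.le.trans (hlow A h3 ⟨i, h4, fun h5 => h2 ⟨i, h4, h5⟩⟩)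

end Vale.Agent.P167.N.H542.Q.PW
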