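import Vale.Agent.P167.N.Kit
import Vale.Agent.P167.N.H542.Q.M2
import Vale.Agent.P167.N.H542.Q.Pc
import Vale.Agent.P167.H542.Q.Fam

/-! generated from Vale.Agent.P167.H542.Q.Fam (q < 1 port) -/

set_option autoImplicit false

open Finset MeasureTheory Filter Topology

namespace Vale.Agent.P167.N.H542.Q

open Vale.Agent.P167.H542.Q Vale.Agent.P167.H542

open Vale.Agent.P167 Vale.Agent.P167.BR Vale.Agent.P167.H542 Vale.Agent.P167.FK

open Vale.Agent.P167.CAQ (FamAt Supp)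

/-- The data of the family. -/
structure FD (S : CA.Dat) (Q m c : ℝ) where
  L : Filter ℕ
  le : L ≤ atTop
  cg : L.IsCountablyGenerated
  η : ℕ → Cfg
  th : ℕ → Finset Ed → ℝ
  p : ℕ → ℤ × ℤ
  good : ∀ᶠ n in L, Good (η n)
  phs : ∀ᶠ n in L, Phs m c (S.D n) (th n)
  bas : ∀ᶠ n in L, Bas (S.D n) (p n)

/-- The family. -/
noncomputable def fam {S : CA.Dat} {Q m c : ℝ} (hQ : 0 < Q) (X : FD S Q m c) (s : ℝ) :
    CAQ.Fam S where
  L := X.L
  le := X.le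
  cg := X.cg
  s := s
  Vc n := VQ Q (S.D n) (X.η n) (X.th n) (X.p n)
  Hl n := HQ Q (S.D n) (X.η n) (X.th n) (X.p n)
  b := X.p
  ok := by
    filter_upwards [X.phs, X.bas] with n h1 h2
    exact famAt hQ (fun A => (lt_of_lt_of_le h1.c0 (h1.cs A)).ne') h2.mem

/-- **(M2)** -/
theorem fam_M2 {S : CA.Dat} {Q m c : ℝ} (hQ : 0 < Q) (hQ1 : Kit Q) (hRSW : RSW Q) (hm0 : 0 ≤ m)
    (hm1 : Ang m) (X : FD S Q m c) (s : ℝ) : (fam hQ X s).M2 := by
  have hQ1_pos := hQ1.pos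
  have hm1_lt := hm1.lt
  intro f hf
  obtain ⟨C, -, h⟩ := m2_datQ c hQ1 hRSW hm0 hm1 S f f hf hf 1
  refine ⟨1, one_pos, C, ?_⟩
  have h' : ∀ᶠ n : ℕ in X.L, ∀ η : Cfg, Good η → ∀ p, Bas (S.D n) p →
      ∀ th, Phs m c (S.D n) th → ∀ t : ℝ, |t| ≤ 1 → ∀ s : ℂ, ‖s‖ ≤ 1 →
      ‖VQ Q (S.D n) η th p (Fc f f n t s)‖ ≤ C := h.filter_mono X.le
  show ∀ᶠ n : ℕ in X.L, _
  filter_upwards [h', X.good, X.phs, X.bas] with n h1 h2 h3 h4 t ht s hs
  have h5 := h1 _ h2 _ h4 _ h3 t ht s hs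
  have e : Fc f f n t s = fun z => (t + s) * (CA.cms f (1 / n) z : ℂ) := by
    funext z
    unfold Fc
    push_cast
    ring
  rw [e] at h5
  exact h5

section Stag

variable {n k : ℕ} {q : ZMod n → ℤ × ℤ} {D : Finset (ℤ × ℤ)} {θ β : ℝ} {η : Cfg}

theorem cB_pos (h0 : 0 < θ) (h1 : Ang θ) : 0 < cB θ := by
  have h1_lt := h1.lt
  have hpi := Real.pi_pos
  refine lt_min (Real.cos_pos_of_mem_Ioo ⟨by linarith, by linarith⟩)
    (lt_min (Real.sin_pos_of_pos_of_lt_pi h0 (by linarith))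
      (Real.sin_pos_of_pos_of_lt_pi (by linarith) (by linarith)))

theorem phs_thB (h0 : 0 < θ) (h1 : Ang θ)
    (hβ : Real.cos (θ / 2 + β) = Real.sin θ) : Phs θ (cB θ) D (thB θ β q D k) := by
  have h1_lt := h1.lt
  refine ⟨h0.le, h1, cB_pos h0 h1, fun A hA => ?_, fun A => ?_⟩
  · unfold thB
    rw [if_pos hA]
  · unfold thB cB
    split_ifs
    · exact min_le_left _ _
    · rw [hβ]; exact (min_le_right _ _).trans (min_le_left _ _)
    · rw [Real.cos_sub_pi_div_two]; exact (min_le_right _ _).trans (min_le_right _ _)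
    · rw [Real.cos_pi_div_two_sub]; exact (min_le_right _ _).trans (min_le_left _ _)

end Stag

end Vale.Agent.P167.N.H542.Q
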