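import Vale.Agent.P167.N.Kit
import Vale.Agent.P167.N.H542.Q.Fam
import Vale.Agent.P167.H542.Q.FamB

/-! generated from Vale.Agent.P167.H542.Q.FamB (q < 1 port) -/

set_option autoImplicit false

open Finset MeasureTheory Filter Topology

namespace Vale.Agent.P167.N.H542.Q

open Vale.Agent.P167.H542.Q Vale.Agent.P167.H542

open Vale.Agent.P167 Vale.Agent.P167.BR Vale.Agent.P167.H542 Vale.Agent.P167.FK

open Vale.Agent.P167.E6 (IsPolygon Encloses)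

open Vale.Agent.P167.H718 (Dob)

open Vale.Agent.P167.CA (cms)

namespace BD
open Vale.Agent.P167.H542.Q.BD

variable {S : CA.Dat} {θ β : ℝ}

/-- The general data. -/
noncomputable def fd (X : BD S θ β) (h0 : 0 < θ) (h1 : Ang θ)
    (hβ : Real.cos (θ / 2 + β) = Real.sin θ) : FD S (2 * Real.cos θ) θ (cB θ) where
  L := X.L
  le := X.le
  cg := X.cg
  η := X.η
  th n := thB θ β (X.q n) (S.D n) (X.k n)
  p n := X.q n 0
  good := X.dob.mono fun _ h => h.good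
  phs := Eventually.of_forall fun _ => phs_thB h0 h1 hβ
  bas := by
    filter_upwards [X.poly, X.enc] with n h2 h3
    exact bas_poly h2 h3

theorem cos_pos (h0 : 0 < θ) (h1 : Ang θ) : 0 < 2 * Real.cos θ := by
  have h1_lt := h1.lt
  have hpi := Real.pi_pos
  have := Real.cos_pos_of_mem_Ioo (x := θ) ⟨by linarith, by linarith⟩
  linarith

theorem one_le (_h0 : 0 < θ) (h1 : Ang θ) : Kit (2 * Real.cos θ) := h1.kit

/-- **The family of the Dobrushin functionals.** -/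
noncomputable def famB (X : BD S θ β) (h0 : 0 < θ) (h1 : Ang θ)
    (hβ : Real.cos (θ / 2 + β) = Real.sin θ) : CAQ.Fam S :=
  fam (cos_pos h0 h1) (fd X h0 h1 hβ) (2 / (Real.pi - θ))

/-- **(M2)** -/
theorem famB_M2 (X : BD S θ β) (h0 : 0 < θ) (h1 : Ang θ)
    (hβ : Real.cos (θ / 2 + β) = Real.sin θ) (hRSW : RSW (2 * Real.cos θ)) :
    (famB X h0 h1 hβ).M2 :=
  fam_M2 (cos_pos h0 h1) (one_le h0 h1) hRSW h0.le h1 _ _

/-- The value at a real charge. -/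
theorem famB_V (X : BD S θ β) (h0 : 0 < θ) (h1 : Ang θ)
    (hβ : Real.cos (θ / 2 + β) = Real.sin θ) (n : ℕ) (f : ℂ → ℝ) :
    (famB X h0 h1 hβ).V n f = Ex (2 * Real.cos θ) (S.D n) (X.η n)
      (QX.XB θ β (X.q n) (S.D n) (X.k n) (cms f (1 / n))) := by
  have h1_lt := h1.lt
  show (VQ (2 * Real.cos θ) (S.D n) (X.η n) (thB θ β (X.q n) (S.D n) (X.k n)) (X.q n 0)
    fun z => (cms f (1 / n) z : ℂ)).re = _
  rw [VQ_XB hβ, Complex.ofReal_re]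

/-- The value as a quotient of partition functions. -/
theorem famB_ZQ (X : BD S θ β) (h0 : 0 < θ) (h1 : Ang θ)
    (hβ : Real.cos (θ / 2 + β) = Real.sin θ) (f : ℂ → ℝ) :
    ∀ᶠ n in X.L, QX.ZQ θ (X.q n) (S.D n) (QX.stag θ β (X.q n) (X.k n)) (cms f (1 / n)) =
      QX.ZQ θ (X.q n) (S.D n) (QX.stag θ β (X.q n) (X.k n)) 0 * (famB X h0 h1 hβ).V n f := by
  have h1_lt := h1.lt
  have hpi := Real.pi_pos
  filter_upwards [X.poly, X.enc, X.kle, X.dob] with n h2 h3 h4 h5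
  rw [famB_V]
  exact QX.ZQ_stag h2 h3 (Real.sin_pos_of_pos_of_lt_pi h0 (by linarith)).ne'
    (Real.cos_pos_of_mem_Ioo ⟨by linarith, by linarith⟩) hβ h4 h5 _

/-- The potential of the charge `f`. -/
theorem famB_H (X : BD S θ β) (h0 : 0 < θ) (h1 : Ang θ)
    (hβ : Real.cos (θ / 2 + β) = Real.sin θ) (n : ℕ) (f : ℂ → ℝ) (z : ℤ × ℤ) :
    (famB X h0 h1 hβ).H n f z = Ex (2 * Real.cos θ) (S.D n) (X.η n)
      (XTR (thB θ β (X.q n) (S.D n) (X.k n)) (S.D n) (X.q n 0) (cms f (1 / n)) z) := rfl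

/-- The potential of the charge `0`. -/
theorem famB_H0 (X : BD S θ β) (h0 : 0 < θ) (h1 : Ang θ)
    (hβ : Real.cos (θ / 2 + β) = Real.sin θ) (n : ℕ) (z : ℤ × ℤ) :
    (famB X h0 h1 hβ).H n (fun _ => 0) z = Ex (2 * Real.cos θ) (S.D n) (X.η n)
      (fun ω => open Classical in
        ∑ A ∈ (pcs ω (S.D n)).filter fun A => Sep (S.D n) A z (X.q n 0),
          Real.tan (thB θ β (X.q n) (S.D n) (X.k n) A)) := by
  have h1_lt := h1.lt
  show HQ (2 * Real.cos θ) (S.D n) (X.η n) (thB θ β (X.q n) (S.D n) (X.k n)) (X.q n 0)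
    (cms (fun _ => 0) (1 / n)) z = _
  rw [cms_zero]
  exact HQ_zero (fun A => (lt_of_lt_of_le (cB_pos h0 h1) ((phs_thB h0 h1 hβ).cs A)).ne') z

end BD

end Vale.Agent.P167.N.H542.Q

/-! ### Dot notation

`X.famN`, `X.famN_V`, … are the versions for `Ang θ` of `X.famB`, `X.famB_V`, … -/

namespace Vale.Agent.P167.H542.Q.BD

open Finset Vale.Agent.P167.N Vale.Agent.P167.BR Vale.Agent.P167.FK
open Vale.Agent.P167.CA (cms)

variable {S : CA.Dat} {θ β : ℝ}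

/-- `fd` for `Ang θ`. -/
noncomputable abbrev fdN (X : BD S θ β) (h0 : 0 < θ) (h1 : Ang θ)
    (hβ : Real.cos (θ / 2 + β) = Real.sin θ) : N.H542.Q.FD S (2 * Real.cos θ) θ (cB θ) :=
  N.H542.Q.BD.fd X h0 h1 hβ

/-- `famB` for `Ang θ`. -/
noncomputable abbrev famN (X : BD S θ β) (h0 : 0 < θ) (h1 : Ang θ)
    (hβ : Real.cos (θ / 2 + β) = Real.sin θ) : CAQ.Fam S :=
  N.H542.Q.BD.famB X h0 h1 hβ

theorem famN_M2 (X : BD S θ β) (h0 : 0 < θ) (h1 : Ang θ)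
    (hβ : Real.cos (θ / 2 + β) = Real.sin θ) (hRSW : RSW (2 * Real.cos θ)) :
    (X.famN h0 h1 hβ).M2 := N.H542.Q.BD.famB_M2 X h0 h1 hβ hRSW

theorem famN_V (X : BD S θ β) (h0 : 0 < θ) (h1 : Ang θ)
    (hβ : Real.cos (θ / 2 + β) = Real.sin θ) (n : ℕ) (f : ℂ → ℝ) :
    (X.famN h0 h1 hβ).V n f = Ex (2 * Real.cos θ) (S.D n) (X.η n)
      (QX.XB θ β (X.q n) (S.D n) (X.k n) (cms f (1 / n))) :=
  N.H542.Q.BD.famB_V X h0 h1 hβ n f

theorem famN_ZQ (X : BD S θ β) (h0 : 0 < θ) (h1 : Ang θ)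
    (hβ : Real.cos (θ / 2 + β) = Real.sin θ) (f : ℂ → ℝ) :
    ∀ᶠ n in X.L, QX.ZQ θ (X.q n) (S.D n) (QX.stag θ β (X.q n) (X.k n)) (cms f (1 / n)) =
      QX.ZQ θ (X.q n) (S.D n) (QX.stag θ β (X.q n) (X.k n)) 0 * (X.famN h0 h1 hβ).V n f :=
  N.H542.Q.BD.famB_ZQ X h0 h1 hβ f

theorem famN_H (X : BD S θ β) (h0 : 0 < θ) (h1 : Ang θ)
    (hβ : Real.cos (θ / 2 + β) = Real.sin θ) (n : ℕ) (f : ℂ → ℝ) (z : ℤ × ℤ) :
    (X.famN h0 h1 hβ).H n f z = Ex (2 * Real.cos θ) (S.D n) (X.η n)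
      (XTR (thB θ β (X.q n) (S.D n) (X.k n)) (S.D n) (X.q n 0) (cms f (1 / n)) z) := rfl

theorem famN_H0 (X : BD S θ β) (h0 : 0 < θ) (h1 : Ang θ)
    (hβ : Real.cos (θ / 2 + β) = Real.sin θ) (n : ℕ) (z : ℤ × ℤ) :
    (X.famN h0 h1 hβ).H n (fun _ => 0) z = Ex (2 * Real.cos θ) (S.D n) (X.η n)
      (fun ω => open Classical in
        ∑ A ∈ (pcs ω (S.D n)).filter fun A => Sep (S.D n) A z (X.q n 0),
          Real.tan (thB θ β (X.q n) (S.D n) (X.k n) A)) :=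
  N.H542.Q.BD.famB_H0 X h0 h1 hβ n z

end Vale.Agent.P167.H542.Q.BD
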