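import Vale.Agent.P167.N.Kit
import Vale.Agent.P167.N.H562.Q.MQ1
import Vale.Agent.P167.N.QB.Cst
import Vale.Agent.P167.N.QB.Maj
import Vale.Agent.P167.N.QB.Uns1
import Vale.Agent.P167.H542.Q.Um2

/-!
# P167, `0 < q < 1` (N-version of `H542/Q/Um2.lean`): majorants with a bump in any direction

`K` is at least `KW θ`, so that the masses of the small loops are at most `dw θ`.
-/

set_option autoImplicit false

namespace Vale.Agent.P167.N.H542.Q.Um

open Vale.Agent.P167.H542.Q.Um Vale.Agent.P167.H542.Q Vale.Agent.P167.H542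

open Finset Relation Vale.Agent.P167 Vale.Agent.P167.BR Vale.Agent.P167.FK

open Vale.Agent.P167.H135 (Mov Cor rk)

open Vale.Agent.P167.H562.MAJ (bigs Sm core Sc mem_core G_small W_zone W_poly conn_poly
  exists_ins_of_G mass_sum nb1 sum_nb1 nm_comm')

open Vale.Agent.P167.E6 (IsPolygon Encloses dir face)

open Vale.Agent.P167.QX (lo hi exists_xy lo_xy hi_xy wB)

open Vale.Agent.P167.H562.QM (BumpsQ WtQ Far)

open Vale.Agent.P167.QB

open Vale.Agent.P167.N.QB (KW KW_small KW_one)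

open Vale.Agent.P167.H640.ND (Mq poly_mov enc_mov ard_mov)

variable {ω : Cfg} {D Z : Finset (ℤ × ℤ)} {A : Finset Ed} {θ K : ℝ} {n : ℕ}
  {q : ZMod n → ℤ × ℤ} {l m : ℕ} {r R Rm rc rd : ℤ} {fc fd : ℤ × ℤ → ℝ} {i : Fin 4}

section

variable (hq : IsPolygon q) (hD : Encloses q D)

include hq hD

omit hq hD in
/-- The masses of the small loops. -/
theorem sm_dw (hθ1 : Ang θ) (hK : KW θ ≤ K) (hS : Sc K r) {g : ℤ × ℤ → ℝ}
    (hg : ∀ z, |g z| ≤ K / (r : ℝ) ^ 2) (ω : Cfg) (ℓ : Finset Ed) (hℓ : IsLoop ω ℓ)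
    (hs : Small (dq K r) ℓ) : |G g ℓ| ≤ Real.pi / 2 - θ := by
  have h1 := hS.one_le
  have h8 : (8 : ℝ) ≤ r := by exact_mod_cast hS.r8
  have hb := H562.SML.bd_G (κ := 1 / (66 * K)) (ρ := (r : ℝ)) (by linarith) (by linarith) hg ω ℓ
    (dq K r) hℓ le_rfl hs
  have e : K * (dq K r / r) ^ 2 = K * (1 / (66 * K)) ^ 2 := by
    unfold dq
    field_simp
  have h2 : |G g ℓ| ≤ K * (dq K r / r) ^ 2 := hb
  rw [e] at h2
  have h3 := dw_le' θ
  have h4 := hθ1.lt
  linarith [KW_small hθ1 hK]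

omit hq hD in
open Classical in
/-- **The majorant of the product over the pieces**, any zones. -/
theorem maj_any {ι : Type*} {J : Finset ι} {Z Zb : ι → Finset (ℤ × ℤ)} {d : ι → ℝ}
    {g : ι → ℤ × ℤ → ℝ} {M : ℝ} {w : Finset Ed → ℝ → ℝ} {mf : ι → Finset Ed → ℝ}
    (hw : Vale.Agent.P167.N.H562.QM.WtQ θ M D w) (hB : BumpsQ J D (q 0) Z Zb g d (fun _ => True))
    (hsm : ∀ j ∈ J, ∀ (ω : Cfg) (ℓ : Finset Ed), IsLoop ω ℓ → Small (d j) ℓ →
      |G (g j) ℓ| ≤ Real.pi / 2 - θ) (ω : Cfg)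
    (hm : ∀ j ∈ J, ∀ A ∈ pcs ω D, ¬ IsLp D A → ¬ (Vz (Zb j) A ∧ ¬ Small (d j) A) →
      mass D (q 0) (g j) A = mf j A) :
    ∏ A ∈ pcs ω D, |w A (mass D (q 0) (fun z => ∑ j ∈ J, g j z) A)| ≤
      (∏ j ∈ J, M ^ (bigs D (Zb j) (d j) ω).card *
        Real.exp (-(Real.tan θ * Sm (g j) (d j) ω))) *
      ∏ A ∈ (pcs ω D).filter (Far J D Zb d), |w A (∑ j ∈ J, mf j A)| := by
  have h1 := Vale.Agent.P167.N.H562.QM.BumpsQ.maj_det hB hw hsm (T := pcs ω D) (T' := pcs ω D) (ω := ω) subset_rfl subset_rfl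
    (fun _ _ => trivial) (fun A hA _ _ _ _ _ => hA)
  refine h1.trans (le_of_eq ?_)
  rw [Finset.sdiff_self, card_empty, pow_zero, one_mul]
  congr 1
  · refine prod_congr rfl fun j hj => ?_
    have h3 := sum_nb1 (Z := Z) (d := d) (F := g) (j := j) (hB.supp j hj) ω
    rw [h3]
  · refine prod_congr rfl fun A hA => ?_
    rw [mem_filter] at hA
    rw [mass_sum]
    congr 2
    exact sum_congr rfl fun j hj => hm j hj A hA.1 hA.2.1 (hA.2.2 j hj)

open Classical in
/-- **The majorant: bump and point charge at `q m`, bump at `q l`.** -/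
theorem maj4M (hθ0 : 0 < θ) (hθ1 : Ang θ) (hK : KW θ ≤ K) (hln : l < n) (hmn : m < n)
    (hSd : Sc K rd) (hSc : Sc K rc) (hFd : Flt ((rk i).S D) ((rk i).t (q m)) (2 * rd))
    (hFc : Flt D (q l) (2 * rc)) (h0d : (rk i).t (q 0) ∉ sites (hbox ((rk i).t (q m)) (2 * rd)))
    (h0c : q 0 ∉ sites (hbox (q l) (2 * rc)))
    (hsep : Disjoint (Zo i (q m) (2 * rd)) (hbox (q l) (2 * rc)))
    (hgd : ∀ z, |fd z| ≤ K / (rd : ℝ) ^ 2) (hgc : ∀ z, |fc z| ≤ K / (rc : ℝ) ^ 2)
    (hsd : ∀ z, (rk i).F fd z ≠ 0 → z ∈ sites (core K ((rk i).t (q m)) rd))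
    (hsc : ∀ z, fc z ≠ 0 → z ∈ sites (core K (q l) rc))
    (htd : ∑ᶠ z, fd z = θ) (htc : ∑ᶠ z, fc z = θ) (ω : Cfg) {Nd Nc : ℕ}
    (hNd : (bigs D (Zo i (q m) rd) (dq K rd) ω).card ≤ Nd)
    (hNc : (bigs D (hbox (q l) rc) (dq K rc) ω).card ≤ Nc) :
    |XG θ q D n (fun z => (fd z - dlt (q m) θ z) - fc z) ω| ≤ MW θ ^ 2 *
      (((MW θ ^ 3) ^ Nd * Real.exp (-(Real.tan θ * Sm fd (dq K rd) ω))) *
      ((MW θ ^ 3) ^ Nc * Real.exp (-(Real.tan θ * Sm (-fc) (dq K rc) ω)))) := by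
  have hθ1_lt := hθ1.lt
  have hM2 := Vale.Agent.P167.N.QB.two_le_MW hθ0 hθ1
  have hM1 : 1 ≤ MW θ := by linarith
  have hrc := hSc.r8
  have hrd := hSd.r8
  have hZd : Zo i (q m) rd ⊆ D := (Zo_mono _ (by omega)).trans (Zo_sub hFd)
  have hqd : q m ∈ sites (Zo i (q m) rd) := b_mem_Zo _ (by omega)
  have hqc : q l ∈ sites (hbox (q l) rc) := by rw [mem_sites_hbox (by omega)]; omega
  have hms : q m ∈ sites D := sites_mono hZd hqd
  have hnegs : ∑ᶠ z, (-fc) z = -θ := by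
    rw [← htc, ← finsum_neg_distrib]
    rfl
  have hgc' : ∀ z, |(-fc) z| ≤ K / (rc : ℝ) ^ 2 := fun z => by
    rw [Pi.neg_apply, abs_neg]
    exact hgc z
  have hsc' : ∀ z, (-fc) z ≠ 0 → z ∈ sites (core K (q l) rc) := fun z hz =>
    hsc z (by intro h'; apply hz; show -(fc z) = 0; rw [h', neg_zero])
  set w' : Finset Ed → ℝ → ℝ := fun A t => wB θ (gB θ) q D n A (t - if Ard q m A then θ else 0)
    with hw'
  set w : Finset Ed → ℝ → ℝ := fun A t => if IsLp D A then H562.wt θ t else w' A t with hw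
  have hwt : Vale.Agent.P167.N.H562.QM.WtQ θ (MW θ) D w :=
    { a0 := hθ0
      a1 := hθ1
      M1 := hM1
      loop := fun A t hA => by rw [hw]; simp only; rw [if_pos hA]
      bd := fun A t => by
        rw [hw]
        simp only
        split_ifs with h
        · have := (Vale.Agent.P167.N.QB.wtq hθ0 hθ1 q D n).loop A t h
          rw [← this]
          exact Vale.Agent.P167.N.QB.wB_bd hθ0 hθ1 q D n A t
        · exact Vale.Agent.P167.N.QB.wB_bd hθ0 hθ1 q D n A _ }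
  obtain ⟨s1, s2⟩ := sep_cores hSd hSc hsep
  have hB := bq_two hq hD (oneM hq hD hSd hFd hgd hsd) (oneU hq hD hSc hFc hgc' hsc') s1 s2
  set Zb : Bool → Finset (ℤ × ℤ) := b2 (Zo i (q m) rd) (hbox (q l) rc) with hZb
  set dd : Bool → ℝ := b2 (dq K rd) (dq K rc) with hdd
  set ix : Bool → ℕ := b2 m l with hi'
  set g : Bool → ℤ × ℤ → ℝ := b2 fd (-fc) with hg'
  set t : Bool → ℝ := b2 θ (-θ) with ht'
  have hmaj := maj_any (mf := fun j A => if Ard q (ix j) A ∧ ¬ Vz (Zb j) A then t j else 0)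
    hwt hB (by
      rintro (_ | _) _
      · exact sm_dw hθ1 hK hSc hgc'
      · exact sm_dw hθ1 hK hSd hgd) ω (by
      rintro (_ | _) _ A hA hAl hfar
      · exact QB.mass_far hq hD hSc hFc hln h0c hsc' hnegs hA hAl hfar
      · exact mass_farM hq hD hSd hFd hmn h0d hsd htd hA hAl hfar)
  have hf : (fun z => fd z - fc z) = fun z => ∑ j, g j z := by
    funext z
    rw [Fintype.sum_bool]
    show fd z - fc z = fd z + -(fc z)
    ring
  have e0 : |XG θ q D n (fun z => (fd z - dlt (q m) θ z) - fc z) ω| =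
      ∏ A ∈ pcs ω D, |w A (mass D (q 0) (fun z => ∑ j, g j z) A)| := by
    unfold XG QX.XB
    rw [abs_prod, ← hf]
    refine prod_congr rfl fun A hA => ?_
    have e1 : mass D (q 0) (fun z => (fd z - dlt (q m) θ z) - fc z) A =
        mass D (q 0) (fun z => fd z - fc z) A - if Ard q m A then θ else 0 := by
      rw [mass_sub' (fun z => fd z - dlt (q m) θ z) fc, mass_sub' fd, mass_sub' fd,
        mass_dlt hq hD hmn.le hA hms]
      ring
    rw [e1]
    congr 1
    simp only [hw, hw']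
    by_cases h : IsLp D A
    · rw [if_pos h, if_neg (ard_lp hq hD hA h), sub_zero]
      exact (Vale.Agent.P167.N.QB.wtq hθ0 hθ1 q D n).loop A _ h
    · rw [if_neg h]
  rw [e0]
  refine hmaj.trans ?_
  rw [Fintype.prod_bool]
  -- the far strands
  set F : Finset (Finset Ed) := (pcs ω D).filter (Far univ D Zb dd) with hFdef
  obtain ⟨a, ham, ha⟩ := off_pos hq hD ω hZd (econ_Zo _ (by omega)) hmn.le hqd
  obtain ⟨b, hbl, hb⟩ := off_pos hq hD ω ((hbox_mono (by omega)).trans (hbox_sub hFc))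
    (econ_hbox (by omega)) hln.le hqc
  have hFF : ∀ A ∈ F, A ∈ pcs ω D ∧ ¬ IsLp D A := fun A hA => by
    rw [hFdef, mem_filter] at hA
    exact ⟨hA.1, hA.2.1⟩
  have hfar := Vale.Agent.P167.N.QB.far_neg hq hD (ω := ω) (F := F) (a := a) (b := b) (m := m) (N := Nd + Nc)
    (Vale.Agent.P167.N.QB.sin_pos' hθ0 hθ1) hθ1.kit hM2
    (Vale.Agent.P167.N.QB.inv_le_MW hθ0 hθ1)
    (ham.trans hmn.le) (hbl.trans hln.le) hmn.le hFF ?_ ?_
  · have e1 : ∏ A ∈ F, |w A (∑ j, if Ard q (ix j) A ∧ ¬ Vz (Zb j) A then t j else 0)| =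
        ∏ A ∈ F, |wB θ (gB θ) q D n A
          (-((if Ard q m A ∧ ¬ Ard q a A then θ else 0) + if Ard q b A then θ else 0))| := by
      refine prod_congr rfl fun A hA => ?_
      obtain ⟨hA', hAl⟩ := hFF A hA
      simp only [hw, hw']
      rw [if_neg hAl]
      congr 2
      rw [Fintype.sum_bool]
      have k1 : (if Ard q (ix true) A ∧ ¬ Vz (Zb true) A then t true else 0) =
          if Ard q a A then θ else 0 := by
        have hh : Ard q (ix true) A ∧ ¬ Vz (Zb true) A ↔ Ard q a A := ha A hA'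
        by_cases h' : Ard q a A
        · rw [if_pos h', if_pos (hh.2 h')]
          rfl
        · rw [if_neg h', if_neg (fun h'' => h' (hh.1 h''))]
      have k2 : (if Ard q (ix false) A ∧ ¬ Vz (Zb false) A then t false else 0) =
          -if Ard q b A then θ else 0 := by
        have hh : Ard q (ix false) A ∧ ¬ Vz (Zb false) A ↔ Ard q b A := hb A hA'
        by_cases h' : Ard q b A
        · rw [if_pos h', if_pos (hh.2 h')]
          rfl
        · rw [if_neg h', if_neg (fun h'' => h' (hh.1 h'')), neg_zero]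
      rw [k1, k2]
      by_cases h3 : Ard q a A
      · have h4 : Ard q m A := ((ha A hA').2 h3).1
        have h5 : ¬ (Ard q m A ∧ ¬ Ard q a A) := fun h' => h'.2 h3
        rw [if_pos h3, if_pos h4, if_neg h5]
        ring
      · by_cases h4 : Ard q m A
        · have h5 : Ard q m A ∧ ¬ Ard q a A := ⟨h4, h3⟩
          rw [if_neg h3, if_pos h4, if_pos h5]
          ring
        · have h5 : ¬ (Ard q m A ∧ ¬ Ard q a A) := fun h' => h4 h'.1
          rw [if_neg h3, if_neg h4, if_neg h5]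
          ring
    rw [e1]
    have k1 : MW θ ^ (bigs D (Zb true) (dd true) ω).card ≤ MW θ ^ Nd :=
      pow_le_pow_right₀ hM1 hNd
    have k2 : MW θ ^ (bigs D (Zb false) (dd false) ω).card ≤ MW θ ^ Nc :=
      pow_le_pow_right₀ hM1 hNc
    have p1 := Real.exp_pos (-(Real.tan θ * Sm fd (dq K rd) ω))
    have p2 := Real.exp_pos (-(Real.tan θ * Sm (-fc) (dq K rc) ω))
    calc _ ≤ (MW θ ^ Nd * Real.exp (-(Real.tan θ * Sm fd (dq K rd) ω)) *
          (MW θ ^ Nc * Real.exp (-(Real.tan θ * Sm (-fc) (dq K rc) ω)))) *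
          MW θ ^ (2 + 2 * (Nd + Nc)) := by
          refine mul_le_mul (mul_le_mul (mul_le_mul_of_nonneg_right k1 p1.le)
            (mul_le_mul_of_nonneg_right k2 p2.le) (by positivity) (by positivity)) hfar
            (prod_nonneg fun _ _ => abs_nonneg _) (by positivity)
      _ = _ := by ring
  · -- the number of the other strands
    have hsub : (pcs ω D).filter (fun A => ¬ IsLp D A ∧ A ∉ F) ⊆
        bigs D (Zo i (q m) rd) (dq K rd) ω ∪ bigs D (hbox (q l) rc) (dq K rc) ω := by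
      intro A hA
      rw [mem_filter] at hA
      obtain ⟨hA, hAl, hAF⟩ := hA
      rw [hFdef, mem_filter] at hAF
      have h1 : ¬ Far univ D Zb dd A := fun h' => hAF ⟨hA, h'⟩
      unfold Far at h1
      push Not at h1
      obtain ⟨j, -, h2, h3⟩ := h1 hAl
      rw [mem_union]
      rcases j with _ | _
      · right
        exact mem_filter.2 ⟨hA, h2, h3⟩
      · left
        exact mem_filter.2 ⟨hA, h2, h3⟩
    refine (card_le_card hsub).trans ((card_union_le _ _).trans ?_)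
    omega
  · intro A hA h1 h2 h3
    obtain ⟨hA', hAl⟩ := hFF A hA
    have h4 : Ard q l A := ((hb A hA').2 h3).1
    have h5 : Vz (Zo i (q m) rd) A := by
      by_contra h'
      exact h2 ((ha A hA').1 ⟨h1, h'⟩)
    rw [hFdef, mem_filter] at hA
    have h6 := hA.2.2 true (mem_univ _)
    have h7 : Small (dq K rd) A := by
      by_contra h'
      exact h6 ⟨h5, h'⟩
    exact small_notM hq hD hSd hFd hFc (by omega) hmn h0d hsep hA' h7 h5 h4

open Classical in
/-- **The majorant: bump and point charge at `q m`, point charge at `q l`.** -/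
theorem maj5M (hθ0 : 0 < θ) (hθ1 : Ang θ) (hK : KW θ ≤ K) (hln : l < n) (hmn : m < n)
    (hSd : Sc K rd) (hFd : Flt ((rk i).S D) ((rk i).t (q m)) (2 * rd)) (hFc : Flt D (q l) R)
    (hR : 1 ≤ R) (h0d : (rk i).t (q 0) ∉ sites (hbox ((rk i).t (q m)) (2 * rd)))
    (hsep : Disjoint (Zo i (q m) (2 * rd)) (hbox (q l) R))
    (hgd : ∀ z, |fd z| ≤ K / (rd : ℝ) ^ 2)
    (hsd : ∀ z, (rk i).F fd z ≠ 0 → z ∈ sites (core K ((rk i).t (q m)) rd))
    (htd : ∑ᶠ z, fd z = θ) (ω : Cfg) {Nd : ℕ}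
    (hNd : (bigs D (Zo i (q m) rd) (dq K rd) ω).card ≤ Nd) :
    |XG θ q D n (fun z => (fd z - dlt (q m) θ z) - dlt (q l) θ z) ω| ≤ MW θ ^ 2 *
      ((MW θ ^ 3) ^ Nd * Real.exp (-(Real.tan θ * Sm fd (dq K rd) ω))) := by
  have hθ1_lt := hθ1.lt
  have hM2 := Vale.Agent.P167.N.QB.two_le_MW hθ0 hθ1
  have hM1 : 1 ≤ MW θ := by linarith
  have hrd := hSd.r8
  have hZd : Zo i (q m) rd ⊆ D := (Zo_mono _ (by omega)).trans (Zo_sub hFd)
  have hqd : q m ∈ sites (Zo i (q m) rd) := b_mem_Zo _ (by omega)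
  have hqc : q l ∈ sites (hbox (q l) R) := by rw [mem_sites_hbox hR]; omega
  have hms : q m ∈ sites D := sites_mono hZd hqd
  have hls : q l ∈ sites D := sites_mono (hbox_sub hFc) hqc
  set w' : Finset Ed → ℝ → ℝ := fun A t => wB θ (gB θ) q D n A (t - (if Ard q m A then θ else 0) -
    if Ard q l A then θ else 0) with hw'
  set w : Finset Ed → ℝ → ℝ := fun A t => if IsLp D A then H562.wt θ t else w' A t with hw
  have hwt : Vale.Agent.P167.N.H562.QM.WtQ θ (MW θ) D w :=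
    { a0 := hθ0
      a1 := hθ1
      M1 := hM1
      loop := fun A t hA => by rw [hw]; simp only; rw [if_pos hA]
      bd := fun A t => by
        rw [hw]
        simp only
        split_ifs with h
        · have := (Vale.Agent.P167.N.QB.wtq hθ0 hθ1 q D n).loop A t h
          rw [← this]
          exact Vale.Agent.P167.N.QB.wB_bd hθ0 hθ1 q D n A t
        · exact Vale.Agent.P167.N.QB.wB_bd hθ0 hθ1 q D n A _ }
  have hB := bq_one hq hD (oneM hq hD hSd hFd hgd hsd)
  have hmaj := maj_any (mf := fun _ A => if Ard q m A ∧ ¬ Vz (Zo i (q m) rd) A then θ else 0)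
    hwt hB (fun _ _ => sm_dw hθ1 hK hSd hgd) ω (fun _ _ A hA hAl hfar => mass_farM hq hD hSd hFd hmn h0d hsd htd hA hAl hfar)
  simp only [sum_singleton, prod_singleton] at hmaj
  have e0 : |XG θ q D n (fun z => (fd z - dlt (q m) θ z) - dlt (q l) θ z) ω| =
      ∏ A ∈ pcs ω D, |w A (mass D (q 0) fd A)| := by
    unfold XG QX.XB
    rw [abs_prod]
    refine prod_congr rfl fun A hA => ?_
    rw [mass_sub' (fun z => fd z - dlt (q m) θ z), mass_sub' fd, mass_dlt hq hD hmn.le hA hms,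
      mass_dlt hq hD hln.le hA hls]
    congr 1
    simp only [hw, hw']
    by_cases h : IsLp D A
    · rw [if_pos h, if_neg (ard_lp hq hD hA h), if_neg (ard_lp hq hD hA h), sub_zero, sub_zero]
      exact (Vale.Agent.P167.N.QB.wtq hθ0 hθ1 q D n).loop A _ h
    · rw [if_neg h]
  rw [e0]
  refine hmaj.trans ?_
  set F : Finset (Finset Ed) := (pcs ω D).filter
    (Far {()} D (fun _ => Zo i (q m) rd) (fun _ => dq K rd)) with hFdef
  obtain ⟨a, ham, ha⟩ := off_pos hq hD ω hZd (econ_Zo _ (by omega)) hmn.le hqd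
  have hFF : ∀ A ∈ F, A ∈ pcs ω D ∧ ¬ IsLp D A := fun A hA => by
    rw [hFdef, mem_filter] at hA
    exact ⟨hA.1, hA.2.1⟩
  have hfar := Vale.Agent.P167.N.QB.far_neg hq hD (ω := ω) (F := F) (a := a) (b := l) (m := m) (N := Nd)
    (Vale.Agent.P167.N.QB.sin_pos' hθ0 hθ1) hθ1.kit hM2
    (Vale.Agent.P167.N.QB.inv_le_MW hθ0 hθ1)
    (ham.trans hmn.le) hln.le hmn.le hFF ?_ ?_
  · have e1 : ∏ A ∈ F, |w A (if Ard q m A ∧ ¬ Vz (Zo i (q m) rd) A then θ else 0)| =
        ∏ A ∈ F, |wB θ (gB θ) q D n A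
          (-((if Ard q m A ∧ ¬ Ard q a A then θ else 0) + if Ard q l A then θ else 0))| := by
      refine prod_congr rfl fun A hA => ?_
      obtain ⟨hA', hAl⟩ := hFF A hA
      simp only [hw, hw']
      rw [if_neg hAl]
      congr 2
      by_cases h3 : Ard q a A
      · have h4 := (ha A hA').2 h3
        have h5 : ¬ (Ard q m A ∧ ¬ Ard q a A) := fun h' => h'.2 h3
        rw [if_pos h4, if_pos h4.1, if_neg h5]
        ring
      · have h6 : ¬ (Ard q m A ∧ ¬ Vz (Zo i (q m) rd) A) := fun h' => h3 ((ha A hA').1 h')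
        by_cases h4 : Ard q m A
        · have h5 : Ard q m A ∧ ¬ Ard q a A := ⟨h4, h3⟩
          rw [if_neg h6, if_pos h4, if_pos h5]
          ring
        · have h5 : ¬ (Ard q m A ∧ ¬ Ard q a A) := fun h' => h4 h'.1
          rw [if_neg h6, if_neg h4, if_neg h5]
          ring
    rw [e1]
    have k1 : MW θ ^ (bigs D (Zo i (q m) rd) (dq K rd) ω).card ≤ MW θ ^ Nd :=
      pow_le_pow_right₀ hM1 hNd
    have p1 := Real.exp_pos (-(Real.tan θ * Sm fd (dq K rd) ω))
    calc _ ≤ (MW θ ^ Nd * Real.exp (-(Real.tan θ * Sm fd (dq K rd) ω))) *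
          MW θ ^ (2 + 2 * Nd) := by
          refine mul_le_mul (mul_le_mul_of_nonneg_right k1 p1.le) hfar
            (prod_nonneg fun _ _ => abs_nonneg _) (by positivity)
      _ = _ := by ring
  · have hsub : (pcs ω D).filter (fun A => ¬ IsLp D A ∧ A ∉ F) ⊆
        bigs D (Zo i (q m) rd) (dq K rd) ω := by
      intro A hA
      rw [mem_filter] at hA
      obtain ⟨hA, hAl, hAF⟩ := hA
      rw [hFdef, mem_filter] at hAF
      have h1 : ¬ Far {()} D (fun _ => Zo i (q m) rd) (fun _ => dq K rd) A :=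
        fun h' => hAF ⟨hA, h'⟩
      unfold Far at h1
      push Not at h1
      obtain ⟨j, -, h2, h3⟩ := h1 hAl
      exact mem_filter.2 ⟨hA, h2, h3⟩
    exact (card_le_card hsub).trans hNd
  · intro A hA h1 h2 h3
    obtain ⟨hA', hAl⟩ := hFF A hA
    have h5 : Vz (Zo i (q m) rd) A := by
      by_contra h'
      exact h2 ((ha A hA').1 ⟨h1, h'⟩)
    rw [hFdef, mem_filter] at hA
    have h6 := hA.2.2 () (mem_singleton_self _)
    have h7 : Small (dq K rd) A := by
      by_contra h'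
      exact h6 ⟨h5, h'⟩
    exact small_notM hq hD hSd hFd hFc hR hmn h0d hsep hA' h7 h5 h3

end

end Vale.Agent.P167.N.H542.Q.Um
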