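import Vale.Agent.P167.N.Kit
import Vale.Agent.P167.N.H411.Q.CDefs
import Vale.Agent.P167.N.H542.Q.Um2
import Vale.Agent.P167.N.H562.Q.MQ1
import Vale.Agent.P167.N.QB.Low
import Vale.Agent.P167.N.QB.Maj
import Vale.Agent.P167.N.QB.Mom
import Vale.Agent.P167.N.QB.Pr6
import Vale.Agent.P167.N.QB.Uns4
import Vale.Agent.P167.H542.Q.Um3

/-!
# P167, `0 < q < 1` (N-version of `H542/Q/Um3.lean`): the bridge with the window of the base point in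
any direction
-/

set_option autoImplicit false

namespace Vale.Agent.P167.N.H542.Q.Um

open Vale.Agent.P167.H542.Q.Um Vale.Agent.P167.H542.Q Vale.Agent.P167.H542

open Finset Filter Topology MeasureTheory Vale.Agent.P167 Vale.Agent.P167.BR Vale.Agent.P167.FK

open Vale.Agent.P167.E6 (IsPolygon Encloses dir face)

open Vale.Agent.P167.FKA (Loc Ind ArmDec)

open Vale.Agent.P167.H519 (IsLim)

open Vale.Agent.P167.H135 (Mov Cor rk)

open Vale.Agent.P167.QX (lo hi exists_xy lo_xy hi_xy wB)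

open Vale.Agent.P167.H562.SML

open Vale.Agent.P167.H562.MAJ (bigs Sm Sm_loc core Sc mem_core)

open Vale.Agent.P167.H562.QM

open Vale.Agent.P167.QB

open Vale.Agent.P167.N.QB (KW KW_small KW_one)

open Vale.Agent.P167.H174.ND (poly_rot encl_rot s_base)

open Vale.Agent.P167.H640.ND (Mq poly_mov enc_mov ard_mov Ex_mov good_mov)

variable {P : Measure Cfg} {D : Finset (ℤ × ℤ)} {η ω : Cfg} {r R : ℤ} {K θ : ℝ} {i : Fin 4}

/-- **The bridge at `q l`, bump and point charge at `q m`.** -/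
theorem brC2M (hθ0 : 0 < θ) (hθ1 : Ang θ) (hR0 : RSW (2 * Real.cos θ))
    (hP : IsLim (2 * Real.cos θ) P) (hK : KW θ ≤ K) :
    ∃ (r0 : ℝ) (Λ : ℤ) (α C : ℝ), 1 ≤ r0 ∧ 1 ≤ Λ ∧ 0 < α ∧ 0 < C ∧
    ∀ (n : ℕ) (q : ZMod n → ℤ × ℤ) (D : Finset (ℤ × ℤ)), IsPolygon q → Encloses q D →
    ∀ (i : Fin 4) (η : Cfg) (l m : ℕ) (rc R₁ R₂ R₃ rd : ℤ) (fc fd : ℤ × ℤ → ℝ),
      Good η → m < n → l < n → (l : ℤ) + R₃ ≤ n → r0 ≤ rc → r0 ≤ rd →
      4 * rc + 2 ≤ R₁ → Λ * R₁ ≤ R₂ → R₂ + 4 ≤ R₃ →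
      FltQ D η (q l) R₃ false false →
      FltQ ((rk i).S D) ((rk i).c η) ((rk i).t (q m)) (2 * rd) false false →
      q 0 ∉ sites (hbox (q l) R₃) →
      (rk i).t (q 0) ∉ sites (hbox ((rk i).t (q m)) (2 * rd)) →
      Disjoint (Zo i (q m) (2 * rd)) (hbox (q l) R₃) →
      Bq' θ K (q l) rc fc → Bq' θ K ((rk i).t (q m)) rd ((rk i).F fd) →
      |Ex (2 * Real.cos θ) D η (XG θ q D n (fun z => (fd z - dlt (q m) θ z) - fc z)) -
        zC θ (q l) rc R₁ R₂ fc * Ex (2 * Real.cos θ) D η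
          (XG θ q D n (fun z => (fd z - dlt (q m) θ z) - dlt (q l) θ z))| ≤
        C * (((rc : ℝ) / R₁) ^ α + ((R₁ : ℝ) / R₂) ^ α + ((R₂ : ℝ) / R₃) ^ α) *
          (Nf θ K P rc / Nf θ K P rd) := by
  have hθ1_lt := hθ1.lt
  classical
  have hQ : Kit (2 * Real.cos θ) := hθ1.kit
  have hQ0 : 0 < 2 * Real.cos θ := hQ.pos
  have t0 := Vale.Agent.P167.N.H562.QM.tan_nn hθ0 hθ1
  have t2 : Real.tan θ ≤ Real.tan θ := le_rfl
  have hK1 : 1 ≤ K := (KW_one hθ1).trans hK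
  have hM2 := Vale.Agent.P167.N.QB.two_le_MW hθ0 hθ1
  have hM3 : (1 : ℝ) ≤ MW θ ^ 3 := one_le_pow₀ (by linarith)
  obtain ⟨C1, r1, hC1, hr1, h1⟩ := Vale.Agent.P167.N.QB.yb_mom hQ hR0 hP hK1 (MW θ ^ 3) 1 (Real.tan θ) hM3 zero_le_one
  obtain ⟨Λ, α, C, hΛ, hα, hC, h2⟩ := Vale.Agent.P167.N.QB.asmC hθ0 hθ1 hR0
  refine ⟨r1, Λ, α, C * MW θ ^ 2 * C1 * C1, hr1, hΛ, hα, by positivity,
    fun n q D hq hD i η l m rc R₁ R₂ R₃ rd fc fd hη hmn hln hk hrc hrd hR1 hR2 hR3 hFc hFd h0c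
      h0d hdis hfc hfd => ?_⟩
  obtain ⟨hSc, h1c⟩ := h1 rc hrc
  obtain ⟨hSd, h1d⟩ := h1 rd hrd
  obtain ⟨Nc, hNc1, hNc2, hNc3⟩ := h1c (q l)
  obtain ⟨Nd, hNd1, hNd2, hNd3⟩ := h1d ((rk i).t (q m))
  have hrc8 := hSc.r8
  have hrd8 := hSd.r8
  have hΛR : R₁ ≤ R₂ := by nlinarith
  have hFc' : Flt D (q l) R₃ := flt_of hFc
  have hFc2 : Flt D (q l) (2 * rc) := hFc'.mono (by omega)
  have hFd' : Flt ((rk i).S D) ((rk i).t (q m)) (2 * rd) := flt_of hFd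
  have h0c2 : q 0 ∉ sites (hbox (q l) (2 * rc)) := fun h => h0c (sites_mono (hbox_mono (by omega)) h)
  have hfda : ∀ z, |fd z| ≤ K / (rd : ℝ) ^ 2 := fun z => by
    rw [← F_at (i := i) fd z]
    exact hfd.abs_le _
  have hfds : ∑ᶠ z, fd z = θ := (fs_mov (rk i) fd).symm.trans hfd.sum
  set Yc : Cfg → ℝ := YQ (MW θ ^ 3) (Real.tan θ) Nc (-fc) (dq K rc) with hYc
  set Y0 : Cfg → ℝ := YQ (MW θ ^ 3) (Real.tan θ) Nd ((rk i).F fd) (dq K rd) with hY0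
  set Yd : Cfg → ℝ := fun ω => Y0 ((rk i).c ω) with hYd
  have hYd' : ∀ ω, Yd ω = (MW θ ^ 3) ^ Nd ((rk i).c ω) *
      Real.exp (-(Real.tan θ * Sm fd (dq K rd) ω)) := fun ω => by
    rw [hYd, hY0]
    simp only [YQ]
    rw [Sm_mov i]
  have hbd : ∀ ω, (bigs D (Zo i (q m) rd) (dq K rd) ω).card ≤ Nd ((rk i).c ω) := fun ω => by
    rw [← bigs_mov i, S_Zo]
    exact hNd2 _ _
  have hYc0 : ∀ ω, 0 ≤ Yc ω := fun ω => (YQ_pos (by positivity) _ _ _ _ _).le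
  have hYd0 : ∀ ω, 0 ≤ Yd ω := fun ω => (YQ_pos (by positivity) _ _ _ _ _).le
  have hnf : ∀ z, |(-fc) z| ≤ K / (rc : ℝ) ^ 2 := fun z => by
    rw [Pi.neg_apply, abs_neg]; exact hfc.abs_le z
  have hqls : q l ∈ sites D := sites_mono (hbox_sub hFc') (by
    rw [mem_sites_hbox (by omega)]; omega)
  have hqms : q m ∈ sites D := sites_mono (Zo_sub hFd') (b_mem_Zo _ (by omega))
  have hmain := h2 n q D hq hD η n l rc R₁ R₂ R₃ fc (fun z => fd z - dlt (q m) θ z) Yc Yd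
    (C1 * Nf θ K P rc) (MW θ ^ 2) hη hln
    (by omega) hR1 hR2 hR3 hFc h0c hk hfc.nonneg
    (fun z hz => sites_mono hSc.core_sub (hfc.supp z hz)) hfc.sum
    (fun ζ A hA hI => ?_)
    (mul_nonneg hC1.le (Nf_pos _ _ _ _).le) (by positivity) hYc0 hYd0 ?_ ?_ ?_ ?_ ?_
  · refine hmain.trans ?_
    -- the expectation of the majorant at `d`
    have h3 := hNd3 ((rk i).S D) ((rk i).c η) false false (good_mov _ hη) hFd _ hfd.abs_le
      hfd.supp (fun _ => 1) (fun _ => zero_le_one) (fun _ _ _ => rfl) (Real.tan θ) 1 t0 t2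
      zero_le_one le_rfl
    simp only [one_mul, Real.rpow_one] at h3
    rw [FKA.Ex_const hQ0, hfd.sum, mul_one] at h3
    have h4 : Real.exp (-(Real.tan θ * θ * H562.QM.NbP P (dq K rd))) = 1 / Nf θ K P rd := by
      unfold Nf
      rw [Real.exp_neg, one_div]
    rw [h4] at h3
    have h3' : Ex (2 * Real.cos θ) D η Yd ≤ C1 * (1 / Nf θ K P rd) := by
      rw [hYd, ← Ex_mov]
      exact h3
    have h5 : (0 : ℝ) ≤ ((rc : ℝ) / R₁) ^ α + ((R₁ : ℝ) / R₂) ^ α + ((R₂ : ℝ) / R₃) ^ α := by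
      have e1 : (0 : ℝ) ≤ rc := by exact_mod_cast (by omega : (0 : ℤ) ≤ rc)
      have e2 : (0 : ℝ) ≤ R₁ := by exact_mod_cast (by omega : (0 : ℤ) ≤ R₁)
      have e3 : (0 : ℝ) ≤ R₂ := by exact_mod_cast (by omega : (0 : ℤ) ≤ R₂)
      have e4 : (0 : ℝ) ≤ R₃ := by exact_mod_cast (by omega : (0 : ℤ) ≤ R₃)
      positivity
    have h6 := Nf_pos θ K P rc
    calc C * (((rc : ℝ) / R₁) ^ α + ((R₁ : ℝ) / R₂) ^ α + ((R₂ : ℝ) / R₃) ^ α) * MW θ ^ 2 *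
          (C1 * Nf θ K P rc) * Ex (2 * Real.cos θ) D η Yd
        ≤ C * (((rc : ℝ) / R₁) ^ α + ((R₁ : ℝ) / R₂) ^ α + ((R₂ : ℝ) / R₃) ^ α) * MW θ ^ 2 *
          (C1 * Nf θ K P rc) * (C1 * (1 / Nf θ K P rd)) :=
          mul_le_mul_of_nonneg_left h3' (by positivity)
      _ = _ := by ring
  · -- the inner pieces
    rw [mass_sub', mass_innM hq hD (m := m) (rm := rd) hln hmn hFd' hFc'
      (by omega) (by omega) (by omega) hdis h0c
      (fun z hz => sites_mono (Ko_sub hSd _) (supp_Ko hfd.supp z hz)) hI, zero_sub,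
      mass_dlt hq hD hmn.le hA hqms, if_neg, neg_zero]
    intro ha
    have hAl : ¬ IsLp D A := fun h' => ard_lp hq hD hA h' ha
    obtain ⟨x, y, g1, g2, g3, g4, g5, -⟩ := inn_xy hq hD hFc' (by omega) hln h0c hA
      (fun e he => (hI e he).1) (fun e he => (hI e he).2) hAl
    have hfar := far_m hq hD hFd' (by omega) hFc' (by omega) hdis
    unfold Ard at ha
    rw [lo_xy hq hD hA g1, hi_xy hq hD hA g1] at ha
    omega
  · intro ω ω' hw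
    refine YQ_reads hSd hNd1 hfd.supp fun v hv => hw _ fun hv' => ?_
    have hvD : v ∈ (rk i).S D := (rk i).mem_S'.2 (hbox_sub hFc' hv')
    refine Finset.disjoint_left.1 hdis (mem_Zo.2 ?_) hv'
    rw [Equiv.apply_symm_apply]
    exact near_hbox hFd hvD hv
  · intro D' η' hF' hη' G hG0 hG
    have h3 := hNc3 D' η' false false hη' (fltQ_mn hF' (by omega)) (-fc) hnf hfc.neg_supp G hG0
      (fun ω ω' hw => hG ω ω' fun v hv => hw v fun hv' => hv (hbox_mono (by omega) hv'))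
      (Real.tan θ) 1 t0 t2 zero_le_one le_rfl
    simp only [Real.rpow_one] at h3
    rw [hfc.neg_sum] at h3
    refine h3.trans (le_of_eq ?_)
    unfold Nf
    congr 3
    ring
  · intro ω
    have h3 := Vale.Agent.P167.N.QB.FL_le (θ := θ) (σ := -1) hθ0 hθ1 hK hSc (R := R₁) (by omega) (Or.inr rfl) hnf
      hfc.neg_supp (hNc2 ω)
    refine (le_abs_self _).trans (h3.trans ?_)
    rw [hYc, YQ]
    refine mul_le_mul_of_nonneg_left (mul_le_mul_of_nonneg_right ?_ (Real.exp_pos _).le)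
      (by linarith)
    rw [← pow_mul]
    exact pow_le_pow_right₀ (by linarith) (by omega)
  · intro ω
    rw [hYd']
    exact maj4M hq hD hθ0 hθ1 hK hln hmn hSd hSc hFd' hFc2 h0d h0c2
      (hdis.mono_right (hbox_mono (by omega))) hfda hfc.abs_le hfd.supp hfc.supp hfds
      hfc.sum ω (hbd ω) (hNc2 ω D)
  · intro ω
    rw [hYd']
    exact maj5M hq hD hθ0 hθ1 hK hln hmn hSd hFd' hFc' (by omega) h0d hdis hfda hfd.supp
      hfds ω (hbd ω)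

variable {n : ℕ} {q : ZMod n → ℤ × ℤ} {l : ℕ} {rp : ℤ}

/-- The change of the base point. -/
theorem base_geoM (hq : IsPolygon q) (hD : Encloses q D)
    (hθ0 : 0 < θ) (hθ1 : Ang θ) (hln : l ≤ n) (hR : 2 ≤ R) (hrp : 1 ≤ rp)
    (hFc : Flt D (q l) R) (hFp : Flt ((rk i).S D) ((rk i).t (q 0)) (2 * rp))
    (hdis : Disjoint (Zo i (q 0) (2 * rp)) (hbox (q l) R)) :
    ∃ (q' : ZMod n → ℤ × ℤ) (m l' : ℕ), IsPolygon q' ∧ Encloses q' D ∧ m < n ∧ l' < n ∧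
      q' m = q 0 ∧ q' l' = q l ∧ q' 0 = q l + (R - 1, 0) ∧ (l' : ℤ) + (R - 2) ≤ n ∧
    ∃ s : ℤ, (s = 0 ∨ s = 1 ∨ s = -1) ∧ ∀ fp g : ℤ × ℤ → ℝ, (∀ z, fp z ≠ 0 → z ∈ sites D) →
      (∀ z, g z ≠ 0 → z ∈ sites D) → ∑ᶠ z, fp z = θ → ∑ᶠ z, g z = θ → ∀ ω : Cfg,
      XG θ q D n (fun z => fp z - g z) ω = (2 * Real.cos θ) ^ s *
        XG θ q' D n (fun z => (fp z - dlt (q' m) θ z) - g z) ω := by
  have hθ1_lt := hθ1.lt
  obtain ⟨hl1, hl2, -⟩ := base_pos hq hD hln hR hrp hFc hFp hdis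
  obtain ⟨t, ht⟩ : ∃ t : ℕ, (t : ℤ) = R - 1 := ⟨(R - 1).toNat, by omega⟩
  set j : ℕ := l + t with hj
  obtain ⟨m, hm⟩ : ∃ m : ℕ, m + j = n := ⟨n - j, by omega⟩
  set q' : ZMod n → ℤ × ℤ := fun i => q (i + j) with hq'def
  have hqq : ∀ i : ZMod n, q' i = q (i + j) := fun _ => rfl
  have hqm : q' m = q 0 := by
    rw [hqq, ← Nat.cast_add, hm, ZMod.natCast_self]
  have hql : q' ((m + l : ℕ) : ZMod n) = q l := by
    rw [hqq, ← Nat.cast_add]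
    have : m + l + j = l + n := by omega
    rw [this, Nat.cast_add, ZMod.natCast_self, add_zero]
  have hq0 : q' 0 = q l + (R - 1, 0) := by
    rw [hqq, zero_add, hj, Nat.cast_add, ← ht]
    exact (walk hq hD hFc t (by omega)).1
  exact ⟨q', m, m + l, poly_rot hq hqq, encl_rot hD hqq, by omega, by omega, hqm, hql, hq0,
    by push_cast; omega,
    base_ch hq hD hθ0 (by linarith [Real.pi_pos]) (by omega) (by omega) hm hqq⟩

theorem pow_le_inv (hQ : Kit (2 * Real.cos θ)) {s : ℤ} (hs : s = 0 ∨ s = 1 ∨ s = -1) :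
    (2 * Real.cos θ) ^ s ≤ (2 * Real.cos θ)⁻¹ := by
  have h0 := hQ.pos
  have h1 := hQ.lt
  have h2 : 1 ≤ (2 * Real.cos θ)⁻¹ := (one_le_inv₀ h0).2 h1.le
  rcases hs with h3 | h3 | h3
  · rw [h3, zpow_zero]; exact h2
  · rw [h3, zpow_one]; linarith
  · rw [h3, zpow_neg_one]

/-- **The bridge at `q l`, bump at the base point.** -/
theorem brC3M (hθ0 : 0 < θ) (hθ1 : Ang θ) (hR0 : RSW (2 * Real.cos θ))
    (hP : IsLim (2 * Real.cos θ) P) (hK : KW θ ≤ K) :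
    ∃ (r0 : ℝ) (Λ : ℤ) (α C : ℝ), 1 ≤ r0 ∧ 1 ≤ Λ ∧ 0 < α ∧ 0 < C ∧
    ∀ (n : ℕ) (q : ZMod n → ℤ × ℤ) (D : Finset (ℤ × ℤ)), IsPolygon q → Encloses q D →
    ∀ (i : Fin 4) (η : Cfg) (l : ℕ) (rc R₁ R₂ R₃ rp : ℤ) (fc fp : ℤ × ℤ → ℝ),
      Good η → l ≤ n → r0 ≤ rc → r0 ≤ rp → 4 * rc + 2 ≤ R₁ → Λ * R₁ ≤ R₂ → R₂ + 6 ≤ R₃ →
      FltQ D η (q l) R₃ false false →
      FltQ ((rk i).S D) ((rk i).c η) ((rk i).t (q 0)) (2 * rp) false false →
      Disjoint (Zo i (q 0) (2 * rp)) (hbox (q l) R₃) →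
      Bq' θ K (q l) rc fc → Bq' θ K ((rk i).t (q 0)) rp ((rk i).F fp) →
      |Ex (2 * Real.cos θ) D η (XG θ q D n (fun z => fp z - fc z)) -
        zC θ (q l) rc R₁ R₂ fc *
          Ex (2 * Real.cos θ) D η (XG θ q D n (fun z => fp z - dlt (q l) θ z))| ≤
        C * (((rc : ℝ) / R₁) ^ α + ((R₁ : ℝ) / R₂) ^ α + ((R₂ : ℝ) / R₃) ^ α) *
          (Nf θ K P rc / Nf θ K P rp) := by
  have hθ1_lt := hθ1.lt
  classical
  have hQ : Kit (2 * Real.cos θ) := hθ1.kit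
  have hQ0 : 0 < 2 * Real.cos θ := hQ.pos
  obtain ⟨r0, Λ, α, C, hr0, hΛ, hα, hC, h⟩ := brC2M hθ0 hθ1 hR0 hP hK
  obtain ⟨C1, r1, -, -, h1⟩ := Vale.Agent.P167.N.QB.yb_mom hQ hR0 hP ((KW_one hθ1).trans hK) 1 1 (Real.tan θ) le_rfl zero_le_one
  refine ⟨max r0 r1, Λ, α, (2 * Real.cos θ)⁻¹ * C * 2 ^ α, hr0.trans (le_max_left _ _), hΛ, hα, by positivity,
    fun n q D hq hD i η l rc R₁ R₂ R₃ rp fc fp hη hln hrc hrp hR1 hR2 hR3 hFc hFp hdis hfc hfp => ?_⟩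
  obtain ⟨hSc, -⟩ := h1 rc ((le_max_right _ _).trans hrc)
  obtain ⟨hSp, -⟩ := h1 rp ((le_max_right _ _).trans hrp)
  replace hrc := (le_max_left _ _).trans hrc
  replace hrp := (le_max_left _ _).trans hrp
  have hr1 : (1 : ℝ) ≤ rc := hr0.trans hrc
  have hr1' : 1 ≤ rc := by exact_mod_cast hr1
  have hr2 : 1 ≤ rp := by exact_mod_cast hr0.trans hrp
  have hR12 : R₁ ≤ R₂ := by nlinarith
  have hFc' := flt_of hFc
  have hFp' := flt_of hFp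
  obtain ⟨-, -, hb2⟩ := base_pos hq hD hln (by omega) hr2 hFc' hFp' hdis
  obtain ⟨q', m, l', hq', hD', hm, hl', hqm, hql, hq0, hlR, s, hs, hbase⟩ :=
    base_geoM (θ := θ) hq hD hθ0 hθ1 hln (by omega) hr2 hFc' hFp' hdis
  have hb1 : q' 0 ∉ sites (hbox (q l) (R₃ - 2)) := by
    rw [mem_sites_hbox (by omega), hq0]
    simp only [Prod.fst_add]
    omega
  rw [← hq0] at hb2
  have hsup1 : ∀ z, fp z ≠ 0 → z ∈ sites D := fun z hz =>
    sites_mono ((Ko_sub hSp _).trans ((Zo_mono _ (by omega)).trans (Zo_sub hFp')))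
      (supp_Ko hfp.supp z hz)
  have hsup2 : ∀ z, fc z ≠ 0 → z ∈ sites D := fun z hz =>
    sites_mono (hSc.core_sub.trans ((hbox_mono (by omega)).trans (hbox_sub hFc'))) (hfc.supp z hz)
  have hls : q l ∈ sites D := sites_mono (hbox_sub hFc') (by
    rw [mem_sites_hbox (by omega)]; omega)
  have hsup3 : ∀ z, dlt (q l) θ z ≠ 0 → z ∈ sites D := dlt_supp hls
  have htot3 : ∑ᶠ z, dlt (q l) θ z = θ := by rw [fin_sites hsup3, sum_dlt hls]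
  have htot1 : ∑ᶠ z, fp z = θ := (fs_mov (rk i) fp).symm.trans hfp.sum
  have e1 : Ex (2 * Real.cos θ) D η (XG θ q D n (fun z => fp z - fc z)) =
      (2 * Real.cos θ) ^ s * Ex (2 * Real.cos θ) D η
        (XG θ q' D n (fun z => (fp z - dlt (q' m) θ z) - fc z)) := by
    rw [← FKA.Ex_mul_left]
    congr 1
    funext ω
    exact hbase fp fc hsup1 hsup2 htot1 hfc.sum ω
  have e2 : Ex (2 * Real.cos θ) D η (XG θ q D n (fun z => fp z - dlt (q l) θ z)) =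
      (2 * Real.cos θ) ^ s * Ex (2 * Real.cos θ) D η
        (XG θ q' D n (fun z => (fp z - dlt (q' m) θ z) - dlt (q l) θ z)) := by
    rw [← FKA.Ex_mul_left]
    congr 1
    funext ω
    exact hbase fp (dlt (q l) θ) hsup1 hsup3 htot1 htot3 ω
  have h2 := h n q' D hq' hD' i η l' m rc R₁ R₂ (R₃ - 2) rp fc fp hη hm hl'
    hlR hrc hrp hR1 hR2 (by omega) (by rw [hql]; exact fltQ_mn hFc (by omega))
    (by rw [hqm]; exact hFp) (by rw [hql]; exact hb1) (by rw [hqm]; exact hb2)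
    (by rw [hql, hqm]; exact hdis.mono_right (hbox_mono (by omega)))
    (by rw [hql]; exact hfc) (by rw [hqm]; exact hfp)
  rw [hql] at h2
  have hc2 : (0 : ℝ) < (2 * Real.cos θ) ^ s := zpow_pos hQ0 _
  have hc3 : (2 * Real.cos θ) ^ s ≤ (2 * Real.cos θ)⁻¹ := pow_le_inv hQ hs
  rw [e1, e2, mul_left_comm, ← mul_sub, abs_mul, abs_of_pos hc2]
  refine (mul_le_mul hc3 h2 (abs_nonneg _) (inv_nonneg.2 hQ0.le)).trans ?_
  have hb1 : (0 : ℝ) < R₁ := by exact_mod_cast (by omega : 0 < R₁)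
  have hb2 : (0 : ℝ) < R₂ := by exact_mod_cast (by omega : 0 < R₂)
  have hb3 : (0 : ℝ) < R₃ := by exact_mod_cast (by omega : 0 < R₃)
  have hb4 : (0 : ℝ) < ((R₃ - 2 : ℤ) : ℝ) := by exact_mod_cast (by omega : 0 < R₃ - 2)
  have g3 : ((R₂ : ℝ) / ((R₃ - 2 : ℤ) : ℝ)) ^ α ≤ 2 ^ α * ((R₂ : ℝ) / R₃) ^ α := by
    rw [← Real.mul_rpow (by norm_num) (by positivity)]
    refine Real.rpow_le_rpow (div_nonneg hb2.le hb4.le) ?_ hα.le
    rw [mul_div_assoc', div_le_div_iff₀ hb4 hb3]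
    have h5 : (R₃ : ℝ) ≤ 2 * ((R₃ - 2 : ℤ) : ℝ) := by
      exact_mod_cast (by omega : R₃ ≤ 2 * (R₃ - 2))
    nlinarith
  have g2 : (1 : ℝ) ≤ 2 ^ α := Real.one_le_rpow (by norm_num) hα.le
  set x1 : ℝ := ((rc : ℝ) / R₁) ^ α with hx1'
  set x2 : ℝ := ((R₁ : ℝ) / R₂) ^ α with hx2'
  set x3 : ℝ := ((R₂ : ℝ) / R₃) ^ α with hx3'
  have hr0' : (0 : ℝ) < rc := by linarith
  have hx1 : 0 ≤ x1 := Real.rpow_nonneg (by positivity) _
  have hx2 : 0 ≤ x2 := Real.rpow_nonneg (by positivity) _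
  have hN : 0 ≤ Nf θ K P rc / Nf θ K P rp := (div_pos (Nf_pos _ _ _ _) (Nf_pos _ _ _ _)).le
  have k1 : x1 + x2 + ((R₂ : ℝ) / ((R₃ - 2 : ℤ) : ℝ)) ^ α ≤ 2 ^ α * (x1 + x2 + x3) := by
    nlinarith
  have k2 := mul_le_mul_of_nonneg_left k1 (mul_nonneg (mul_nonneg
    (inv_nonneg.2 hQ0.le) hC.le) hN)
  calc _ = (2 * Real.cos θ)⁻¹ * C * (Nf θ K P rc / Nf θ K P rp) *
        (x1 + x2 + ((R₂ : ℝ) / ((R₃ - 2 : ℤ) : ℝ)) ^ α) := by ring
    _ ≤ _ := k2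
    _ = _ := by ring

/-- **The functional with the bump at the base point and a point charge**, upper bound. -/
theorem brB3M (hθ0 : 0 < θ) (hθ1 : Ang θ) (hR0 : RSW (2 * Real.cos θ))
    (hP : IsLim (2 * Real.cos θ) P) (hK : KW θ ≤ K) :
    ∃ (r0 C : ℝ), 1 ≤ r0 ∧ 0 < C ∧
    ∀ (n : ℕ) (q : ZMod n → ℤ × ℤ) (D : Finset (ℤ × ℤ)), IsPolygon q → Encloses q D →
    ∀ (i : Fin 4) (η : Cfg) (l : ℕ) (R rp : ℤ) (fp : ℤ × ℤ → ℝ),
      Good η → l ≤ n → r0 ≤ rp → 2 ≤ R →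
      FltQ D η (q l) R false false →
      FltQ ((rk i).S D) ((rk i).c η) ((rk i).t (q 0)) (2 * rp) false false →
      Disjoint (Zo i (q 0) (2 * rp)) (hbox (q l) R) →
      Bq' θ K ((rk i).t (q 0)) rp ((rk i).F fp) →
      Ex (2 * Real.cos θ) D η
        (fun ω => |XG θ q D n (fun z => fp z - dlt (q l) θ z) ω|) ≤ C / Nf θ K P rp := by
  have hθ1_lt := hθ1.lt
  classical
  have hQ : Kit (2 * Real.cos θ) := hθ1.kit
  have hQ0 : 0 < 2 * Real.cos θ := hQ.pos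
  have t0 := Vale.Agent.P167.N.H562.QM.tan_nn hθ0 hθ1
  have t2 : Real.tan θ ≤ Real.tan θ := le_rfl
  have hK1 : 1 ≤ K := (KW_one hθ1).trans hK
  have hM2 := Vale.Agent.P167.N.QB.two_le_MW hθ0 hθ1
  have hM3 : (1 : ℝ) ≤ MW θ ^ 3 := one_le_pow₀ (by linarith)
  obtain ⟨C1, r1, hC1, hr1, h1⟩ := Vale.Agent.P167.N.QB.yb_mom hQ hR0 hP hK1 (MW θ ^ 3) 1 (Real.tan θ) hM3 zero_le_one
  refine ⟨r1, (2 * Real.cos θ)⁻¹ * (MW θ ^ 2 * C1), hr1, by positivity,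
    fun n q D hq hD i η l R rp fp hη hln hrp hR hFc hFp hdis hfp => ?_⟩
  obtain ⟨hSp, h1p⟩ := h1 rp hrp
  obtain ⟨Np, hNp1, hNp2, hNp3⟩ := h1p ((rk i).t (q 0))
  have hrp8 := hSp.r8
  have hFc' := flt_of hFc
  have hFp' := flt_of hFp
  obtain ⟨-, -, hb⟩ := base_pos hq hD hln hR (by omega) hFc' hFp' hdis
  obtain ⟨q', m, l', hq', hD', hm, hl', hqm, hql, hq0, -, s, hs, hbase⟩ :=
    base_geoM (θ := θ) hq hD hθ0 hθ1 hln hR (by omega) hFc' hFp' hdis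
  rw [← hq0] at hb
  have hls : q l ∈ sites D := sites_mono (hbox_sub hFc') (by
    rw [mem_sites_hbox (by omega)]; omega)
  have hc2 : (0 : ℝ) < (2 * Real.cos θ) ^ s := zpow_pos hQ0 _
  have hc3 : (2 * Real.cos θ) ^ s ≤ (2 * Real.cos θ)⁻¹ := pow_le_inv hQ hs
  have hfpa : ∀ z, |fp z| ≤ K / (rp : ℝ) ^ 2 := fun z => by
    rw [← F_at (i := i) fp z]
    exact hfp.abs_le _
  have htot1 : ∑ᶠ z, fp z = θ := (fs_mov (rk i) fp).symm.trans hfp.sum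
  have h3 := hNp3 ((rk i).S D) ((rk i).c η) false false (good_mov _ hη) hFp _ hfp.abs_le
    hfp.supp (fun _ => 1) (fun _ => zero_le_one) (fun _ _ _ => rfl) (Real.tan θ) 1 t0 t2
    zero_le_one le_rfl
  simp only [one_mul, Real.rpow_one] at h3
  rw [FKA.Ex_const hQ0, hfp.sum, mul_one] at h3
  have h4 : Real.exp (-(Real.tan θ * θ * H562.QM.NbP P (dq K rp))) = 1 / Nf θ K P rp := by
    unfold Nf
    rw [Real.exp_neg, one_div]
  rw [h4] at h3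
  have hpt : ∀ ω, |XG θ q D n (fun z => fp z - dlt (q l) θ z) ω| ≤
      (2 * Real.cos θ)⁻¹ * MW θ ^ 2 * YQ (MW θ ^ 3) (Real.tan θ) Np ((rk i).F fp) (dq K rp) ((rk i).c ω) := by
    intro ω
    rw [hbase fp (dlt (q l) θ) (fun z hz => sites_mono ((Ko_sub hSp _).trans
      ((Zo_mono _ (by omega)).trans (Zo_sub hFp'))) (supp_Ko hfp.supp z hz)) (dlt_supp hls) htot1
      (by rw [fin_sites (dlt_supp hls), sum_dlt hls]) ω, abs_mul, abs_of_pos hc2]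
    have h5 := maj5M (R := R) (K := K) (fd := fp) (Nd := Np ((rk i).c ω)) (i := i) hq' hD' hθ0 hθ1
      hK hl' hm hSp (by rw [hqm]; exact hFp') (by rw [hql]; exact hFc') (by omega)
      (by rw [hqm]; exact hb) (by rw [hql, hqm]; exact hdis) hfpa (by rw [hqm]; exact hfp.supp)
      htot1 ω (by
        rw [← bigs_mov i, S_Zo, hqm]
        exact hNp2 _ _)
    rw [hql] at h5
    refine (mul_le_mul hc3 h5 (abs_nonneg _) (inv_nonneg.2 hQ0.le)).trans (le_of_eq ?_)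
    unfold YQ
    rw [Sm_mov i]
    ring
  have h6 : Ex (2 * Real.cos θ) D η
      (fun ω => |XG θ q D n (fun z => fp z - dlt (q l) θ z) ω|) ≤
      Ex (2 * Real.cos θ) D η (fun ω => (2 * Real.cos θ)⁻¹ * MW θ ^ 2 *
        YQ (MW θ ^ 3) (Real.tan θ) Np ((rk i).F fp) (dq K rp) ((rk i).c ω)) :=
    FKA.Ex_mono hQ0 fun S _ => hpt _
  rw [FKA.Ex_mul_left, ← Ex_mov] at h6
  refine h6.trans ?_
  refine (mul_le_mul_of_nonneg_left h3 (by positivity)).trans (le_of_eq ?_)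
  ring

/-- **(UNS) with the window of the base point in any direction.** -/
theorem s_unsM (hθ0 : 0 < θ) (hθ1 : Ang θ) (hR0 : RSW (2 * Real.cos θ))
    (hP : IsLim (2 * Real.cos θ) P) : Vale.Agent.P167.N.H411.Q.S_unsM θ P := by
  have hθ1_lt := hθ1.lt
  intro K hK
  have hQ : Kit (2 * Real.cos θ) := hθ1.kit
  have hQ0 : 0 < 2 * Real.cos θ := hQ.pos
  obtain ⟨r1, Λ1, α1, C1, hr1, hΛ1, hα1, hC1, h1⟩ := brC3M hθ0 hθ1 hR0 hP hK
  obtain ⟨r2, Λ2, α2, C2, hr2, hΛ2, hα2, hC2, h2⟩ := Vale.Agent.P167.N.QB.zC_cmp hθ0 hθ1 hR0 hP hK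
  obtain ⟨r3, C3, hr3, hC3, h3⟩ := brB3M hθ0 hθ1 hR0 hP hK
  obtain ⟨K0, hK0, hsc⟩ := mid_sc (max Λ1 Λ2) (le_trans hΛ1 (le_max_left _ _))
  refine ⟨max (max r1 r2) (max r3 2), K0, min α1 α2 / 3,
    C1 * (3 * 2 ^ α1) + C2 * C3 * (3 * 2 ^ α2), hr1.trans ((le_max_left _ _).trans (le_max_left _ _)),
    hK0, by positivity, by positivity,
    fun n q D hq hD i η l rc R rp fc fp hη hln hrc hrp hR1 hR2 hFc hFp hdis hfc hfp => ?_⟩
  have hdis' : Disjoint (Zo i (q 0) (2 * rp)) (hbox (q l) R) := by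
    rw [← S_disj (rk i), S_Zo]
    exact hdis
  have m1 : r1 ≤ rc := ((le_max_left _ _).trans (le_max_left _ _)).trans hrc
  have m2 : r2 ≤ rc := ((le_max_right _ _).trans (le_max_left _ _)).trans hrc
  have m4 : (2 : ℝ) ≤ rc := ((le_max_right _ _).trans (le_max_right _ _)).trans hrc
  have m5 : r1 ≤ rp := ((le_max_left _ _).trans (le_max_left _ _)).trans hrp
  have m6 : r3 ≤ rp := ((le_max_left _ _).trans (le_max_right _ _)).trans hrp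
  have m4' : 2 ≤ rc := by exact_mod_cast m4
  obtain ⟨R₁, R₂, g1, g2, g3, g4, g5⟩ := hsc rc R (by omega) hR1
  have g2a : Λ1 * R₁ ≤ R₂ := le_trans (mul_le_mul_of_nonneg_right (le_max_left _ _) (by omega)) g2
  have g2b : Λ2 * R₁ ≤ R₂ := le_trans (mul_le_mul_of_nonneg_right (le_max_right _ _) (by omega)) g2
  have k1 := h1 n q D hq hD i η l rc R₁ R₂ R rp fc fp hη hln m1 m5 g1 g2a g3 hFc hFp hdis' hfc hfp
  have k2 := h2 (q l) rc R₁ R₂ (rc ^ 2) (rc ^ 3) fc m2 g1 g2b (by omega) (by nlinarith)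
    (by nlinarith) hfc
  have k3 : |Ex (2 * Real.cos θ) D η (XG θ q D n (fun z => fp z - dlt (q l) θ z))| ≤
      C3 / Nf θ K P rp := (FKA.abs_Ex_le hQ0 _).trans
    (h3 n q D hq hD i η l R rp fp hη hln m6 (by omega) hFc hFp hdis' hfp)
  have hx : (0 : ℝ) < rc := by linarith
  have hRR : (rc : ℝ) ≤ R := by exact_mod_cast (by nlinarith : rc ≤ R)
  have hR0' : (0 : ℝ) < R := by linarith
  have hxR : (rc : ℝ) / R ≤ 1 := (div_le_one hR0').2 hRR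
  have hxR0 : 0 < (rc : ℝ) / R := div_pos hx hR0'
  have e1 : ∀ α' : ℝ, min α1 α2 ≤ α' → ((rc : ℝ) / R) ^ (α' / 3) ≤
      ((rc : ℝ) / R) ^ (min α1 α2 / 3) := fun α' h =>
    Real.rpow_le_rpow_of_exponent_ge hxR0 hxR (by linarith)
  have p1 : (0 : ℝ) < 2 ^ α1 := by positivity
  have p2 : (0 : ℝ) < 2 ^ α2 := by positivity
  have a1 := (g5 α1 hα1).trans (mul_le_mul_of_nonneg_left (e1 α1 (min_le_left _ _))
    (by positivity : (0 : ℝ) ≤ 3 * 2 ^ α1))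
  have a2 := (g5 α2 hα2).trans (mul_le_mul_of_nonneg_left (e1 α2 (min_le_right _ _))
    (by positivity : (0 : ℝ) ≤ 3 * 2 ^ α2))
  have hN := Nf_pos θ K P rc
  have hM := Nf_pos θ K P rp
  set x : ℝ := ((rc : ℝ) / R) ^ (min α1 α2 / 3) with hxdef
  have hx0 : 0 ≤ x := Real.rpow_nonneg hxR0.le _
  have q3 : (0 : ℝ) ≤ ((R₂ : ℝ) / R) ^ α2 := Real.rpow_nonneg (div_nonneg (by
    exact_mod_cast (by omega : 0 ≤ R₂)) hR0'.le) _
  have b1 := k1.trans (mul_le_mul_of_nonneg_right (mul_le_mul_of_nonneg_left a1 hC1.le)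
    (div_pos hN hM).le)
  have b2 : |zC θ (q l) rc R₁ R₂ fc - zC θ (q l) rc (rc ^ 2) (rc ^ 3) fc| ≤
      C2 * (3 * 2 ^ α2 * x) * Nf θ K P rc := k2.trans (mul_le_mul_of_nonneg_right
      (mul_le_mul_of_nonneg_left (by linarith) hC2.le) hN.le)
  have b3 := fin_asm b1 b2 k3 hN.le hC2.le (by positivity)
  refine b3.trans (le_of_eq ?_)
  ring

end Vale.Agent.P167.N.H542.Q.Um
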