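import Vale.Agent.P167.N.Kit
import Vale.Agent.P167.N.H542.Q.Pc
import Vale.Agent.P167.N.H542.Q.Wt
import Vale.Agent.P167.N.H662.L.LDefs
import Vale.Agent.P167.H542.Q.Pt

/-! generated from Vale.Agent.P167.H542.Q.Pt (q < 1 port) -/

set_option autoImplicit false

open Finset

namespace Vale.Agent.P167.N.H542.Q.PT

open Vale.Agent.P167.H542.Q.PT Vale.Agent.P167.H542.Q Vale.Agent.P167.H542

open Vale.Agent.P167 Vale.Agent.P167.BR Vale.Agent.P167.H542 Vale.Agent.P167.H542.Q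

open Vale.Agent.P167.H562.SML (smf mem_smf)

open Vale.Agent.P167.H638.L (bigV)

open Vale.Agent.P167.H662.L (SfQ lwm)

open Vale.Agent.P167.H45 (vs_nonempty)

variable {D T Z : Finset (ℤ × ℤ)} {p : ℤ × ℤ} {K : Set (ℤ × ℤ)} {δ d m c : ℝ} {ω : Cfg}
  {A : Finset Ed} {th : Finset Ed → ℝ} {f g η : ℤ × ℤ → ℝ}

theorem cos_half (h0 : 0 ≤ m) (h1 : Ang m) : 0 < Real.cos m := cos_pos_of h0 h1

/-- Lower bound of the weights of the small loops. -/
theorem wR_ge (h0 : 0 ≤ m) (h1 : Ang m) {t : ℝ} (ht : |t| ≤ thr m) :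
    1 / 2 ≤ wR m t := by
  have hc := cos_pos_of h0 h1
  have h2 := tan_nonneg h0 h1
  have h3 := tan_thr h0 h1
  have h4 := thr_pos h0 h1
  have h5 := thr_le h0 h1
  have e : wR m t = Real.cos t - Real.tan m * Real.sin t := by
    show Real.cos (m + t) / Real.cos m = _
    rw [Real.cos_add, Real.tan_eq_sin_div_cos]
    field_simp
  rw [e]
  have h6 : 1 - t ^ 2 / 2 ≤ Real.cos t := Real.one_sub_sq_div_two_le_cos
  have h7 : |Real.sin t| ≤ |t| := Real.abs_sin_le_abs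
  have h8 : Real.tan m * Real.sin t ≤ Real.tan m * thr m :=
    mul_le_mul_of_nonneg_left ((le_abs_self _).trans (h7.trans ht)) h2
  have h9 : t ^ 2 ≤ 1 / 10 := by
    rw [← sq_abs t]
    nlinarith [abs_nonneg t]
  nlinarith

theorem lwm_zero (h0 : 0 ≤ m) (h1 : Ang m) : lwm m 0 = 0 := by
  show Real.log (wR m 0) = 0
  rw [wR_zero (cos_pos_of h0 h1).ne', Real.log_one]

theorem exp_lwm (h0 : 0 ≤ m) (h1 : Ang m) {t : ℝ} (ht : |t| ≤ thr m) :
    Real.exp (lwm m t) = wR m t := by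
  show Real.exp (Real.log (wR m t)) = wR m t
  exact Real.exp_log (by linarith [wR_ge h0 h1 ht])

theorem lwm_lip (h0 : 0 ≤ m) (h1 : Ang m) {a b : ℝ} (hab : |a| + |b| ≤ thr m) :
    |lwm m (a + b) - lwm m a| ≤ 2 / Real.cos m * |b| := by
  have hc := cos_pos_of h0 h1
  have hu : 1 / 2 ≤ wR m (a + b) := wR_ge h0 h1 ((abs_add_le a b).trans hab)
  have hv : 1 / 2 ≤ wR m a := wR_ge h0 h1 (by linarith [abs_nonneg b])
  have hd : |wR m (a + b) - wR m a| ≤ (Real.cos m)⁻¹ * |b| := by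
    have h := wR_lip (c := Real.cos m) hc le_rfl (a + b) a
    rwa [add_sub_cancel_left] at h
  show |Real.log (wR m (a + b)) - Real.log (wR m a)| ≤ 2 / Real.cos m * |b|
  have eK : 2 / Real.cos m = 2 * (Real.cos m)⁻¹ := by rw [div_eq_mul_inv]
  rw [eK]
  have hK : 0 < (Real.cos m)⁻¹ := inv_pos.2 hc
  set k := (Real.cos m)⁻¹
  set u := wR m (a + b)
  set v := wR m a
  have hu0 : 0 < u := by linarith
  have hv0 : 0 < v := by linarith
  rw [abs_le] at hd
  rw [abs_le, ← Real.log_div hu0.ne' hv0.ne']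
  have hb := abs_nonneg b
  have hkb : 0 ≤ k * |b| := mul_nonneg hK.le hb
  constructor
  · have h2 := Real.log_le_sub_one_of_pos (div_pos hv0 hu0)
    have e : Real.log (v / u) = -Real.log (u / v) := by
      rw [← Real.log_inv, inv_div]
    rw [e] at h2
    have h3 : v / u - 1 ≤ 2 * k * |b| := by
      rw [div_sub_one hu0.ne', div_le_iff₀ hu0]
      nlinarith
    linarith
  · have h2 := Real.log_le_sub_one_of_pos (div_pos hu0 hv0)
    have h3 : u / v - 1 ≤ 2 * k * |b| := by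
      rw [div_sub_one hv0.ne', div_le_iff₀ hv0]
      nlinarith
    linarith

theorem prod_snk (h : Phs m c D th) (hG : Geo D p K δ) (hδ : 0 ≤ δ) (hd : d + 1 ≤ δ)
    (hf : ∀ z ∉ K, f z = 0) (h0 : ∑ z ∈ sites D, f z = 0) :
    XR th D p f ω = (∏ A ∈ snk K d D ω, wR m (G f A)) *
      ∏ A ∈ mak K d D ω, wR (th A) (mass D p f A) := by
  classical
  have hcs : ∀ A, Real.cos (th A) ≠ 0 := fun A => (h.c0.trans_le (h.cs A)).ne'
  unfold XR
  rw [← Finset.prod_filter_mul_prod_filter_not (pcs ω D) (fun A => Small d A ∧ Nr K A)]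
  congr 1
  · refine Finset.prod_congr rfl fun A hA => ?_
    obtain ⟨-, -, -, h4, h5, h6⟩ := snk_spec hG hd (K := K) (ω := ω) (by exact hA)
    rw [mass_nearR hG hδ h4 h5 hf, h.lp A h6]
  · symm
    refine Finset.prod_subset ?_ ?_
    · intro A hA
      obtain ⟨h1, h2, h3⟩ := Finset.mem_filter.1 hA
      exact Finset.mem_filter.2 ⟨h1, fun h4 => h2 h4.1⟩
    · intro A hA hA'
      obtain ⟨h1, h2⟩ := Finset.mem_filter.1 hA
      have hn : ¬ Nr K A := by
        intro hn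
        by_cases hs : Small d A
        · exact h2 ⟨hs, hn⟩
        · exact hA' (Finset.mem_filter.2 ⟨h1, hs, hn⟩)
      rw [mass_farR hG hn hf h0, wR_zero (hcs A)]

/-- **(L-PT)** -/
theorem s_pt : Vale.Agent.P167.N.H662.L.S_pt := by
  classical
  intro m c D Z T p K δ d th g η ω h hG hd0 hd hg hη hg0 hη0 hw hsm hZ hT
  have hδ : 0 ≤ δ := by linarith
  have hgη : ∀ z ∉ K, g z + η z = 0 := fun z hz => by rw [hg z hz, hη z hz, add_zero]
  have hgη0 : ∑ z ∈ sites D, (g z + η z) = 0 := by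
    rw [Finset.sum_add_distrib, hg0, hη0, add_zero]
  have hfin : ∀ A ∈ snk K d D ω, (ins A).Finite := fun A hA =>
    H45.ins_fin s_out (snk_spec hG hd hA).2.2.2.1
  have hGadd : ∀ A ∈ snk K d D ω, G (fun z => g z + η z) A = G g A + G η A := fun A hA => by
    unfold G
    exact finsum_mem_add_distrib (hfin A hA)
  have hG0 : ∀ ℓ : Finset Ed, G (fun _ => (0 : ℝ)) ℓ = 0 := fun ℓ => by
    unfold G; simp
  have hsA : ∀ A ∈ snk K d D ω, |G g A| + |G η A| ≤ thr m := fun A hA =>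
    hsm A (snk_spec hG hd hA).2.2.2.1 (snk_spec hG hd hA).2.1
  -- the small pieces
  have e1 : ∏ A ∈ snk K d D ω, wR m (G g A) = Real.exp (SfQ m Z (fun _ => 0) g d ω) := by
    have e2 : SfQ m Z (fun _ => 0) g d ω = ∑ A ∈ snk K d D ω, lwm m (G g A) := by
      unfold SfQ
      have e3 : ∀ ℓ : Finset Ed, lwm m (G (fun _ => (0 : ℝ)) ℓ + G g ℓ) -
          lwm m (G (fun _ => (0 : ℝ)) ℓ) = lwm m (G g ℓ) := fun ℓ => by
        rw [hG0, zero_add, lwm_zero h.m0 h.m1, sub_zero]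
      simp only [e3]
      exact sum_snk hG hd hw hg hZ fun ℓ hℓ => by rw [hℓ, lwm_zero h.m0 h.m1]
    rw [e2, Real.exp_sum]
    exact Finset.prod_congr rfl fun A hA => (exp_lwm h.m0 h.m1
      (by linarith [hsA A hA, abs_nonneg (G η A)])).symm
  have e4 : ∏ A ∈ snk K d D ω, wR m (G (fun z => g z + η z) A) =
      Real.exp (SfQ m Z (fun _ => 0) g d ω) * Real.exp (SfQ m T g η d ω) := by
    have e5 : SfQ m T g η d ω =
        ∑ A ∈ snk K d D ω, (lwm m (G g A + G η A) - lwm m (G g A)) := by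
      unfold SfQ
      exact sum_snk hG hd hw hη hT fun ℓ hℓ => by rw [hℓ, add_zero, sub_self]
    rw [← e1, e5, Real.exp_sum, ← Finset.prod_mul_distrib]
    refine Finset.prod_congr rfl fun A hA => ?_
    have h1 := hsA A hA
    rw [hGadd A hA, Real.exp_sub, exp_lwm h.m0 h.m1 ((abs_add_le _ _).trans h1),
      exp_lwm h.m0 h.m1 (by linarith [abs_nonneg (G η A)])]
    have h2 : wR m (G g A) ≠ 0 := by
      have := wR_ge h.m0 h.m1 (t := G g A) (by linarith [abs_nonneg (G η A)])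
      linarith
    field_simp
  have hX1 := prod_snk (ω := ω) (d := d) h hG hδ hd hg hg0
  have hX2 := prod_snk (ω := ω) (d := d) h hG hδ hd hgη hgη0
  show |XR th D p (fun z => g z + η z) ω - XR th D p g ω| ≤ _
  rw [hX1, hX2, e1, e4]
  set a := Real.exp (SfQ m Z (fun _ => 0) g d ω)
  set b := Real.exp (SfQ m T g η d ω)
  set P := ∏ A ∈ mak K d D ω, wR (th A) (mass D p g A) with hP
  set P' := ∏ A ∈ mak K d D ω, wR (th A) (mass D p (fun z => g z + η z) A) with hP'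
  set V := bigV D p η d ω with hV
  set N := (mak K d D ω).card with hN
  have hci : 0 ≤ c⁻¹ := inv_nonneg.2 h.c0.le
  have ha : 0 < a := Real.exp_pos _
  have hV0 : 0 ≤ V := H638.L.bigV_nonneg _ _ _ _ _
  have h1 : |P| ≤ c⁻¹ ^ N := prod_le_pow _ fun A _ => abs_wR_le h.c0 (h.cs A) _
  have h2 : |P'| ≤ c⁻¹ ^ N := prod_le_pow _ fun A _ => abs_wR_le h.c0 (h.cs A) _
  have hCN : 0 ≤ c⁻¹ ^ N := pow_nonneg hci _
  have h3 : |P' - P| ≤ c⁻¹ ^ N * V := by
    refine (prod_sub_pow (mak K d D ω) (x := fun A => |mass D p η A|) hci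
      (fun A _ => abs_wR_le h.c0 (h.cs A) _) (fun A _ => abs_wR_le h.c0 (h.cs A) _)
      fun A _ => ?_).trans (mul_le_mul_of_nonneg_left ?_ hCN)
    · refine (wR_lip h.c0 (h.cs A) _ _).trans (le_of_eq ?_)
      rw [H638.L.mass_add, add_sub_cancel_left]
    · unfold bigV at hV
      rw [hV]
      refine Finset.sum_le_sum_of_subset_of_nonneg (fun A hA => ?_) fun _ _ _ => abs_nonneg _
      obtain ⟨h4, h5, -⟩ := Finset.mem_filter.1 hA
      exact Finset.mem_filter.2 ⟨h4, h5⟩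
  have h4 : |P' - P| ≤ c⁻¹ ^ N * (2 * √V) := by
    rcases le_total V 1 with h6 | h6
    · have h5 : V ≤ √V := by
        conv_lhs => rw [← Real.mul_self_sqrt hV0]
        have h6 : √V ≤ 1 := Real.sqrt_le_one.2 h6
        nlinarith [Real.sqrt_nonneg V]
      refine h3.trans (mul_le_mul_of_nonneg_left ?_ hCN)
      linarith
    · have h5 : 1 ≤ √V := Real.one_le_sqrt.2 h6
      calc |P' - P| ≤ |P'| + |P| := abs_sub _ _
        _ ≤ c⁻¹ ^ N * 2 := by linarith
        _ ≤ _ := mul_le_mul_of_nonneg_left (by linarith) hCN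
  have h5 : a * b * P' - a * P = a * ((b - 1) * P' + (P' - P)) := by ring
  rw [h5, abs_mul, abs_of_pos ha, mul_assoc]
  refine mul_le_mul_of_nonneg_left ?_ ha.le
  calc |(b - 1) * P' + (P' - P)| ≤ |b - 1| * |P'| + |P' - P| := by
        rw [← abs_mul]; exact abs_add_le _ _
    _ ≤ |b - 1| * c⁻¹ ^ N + c⁻¹ ^ N * (2 * √V) :=
        add_le_add (mul_le_mul_of_nonneg_left h2 (abs_nonneg _)) h4
    _ = _ := by ring

/-- **(L-SUB)** -/
theorem s_sub : Vale.Agent.P167.N.H662.L.S_sub := by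
  classical
  intro m D T p K δ d d' g η ω hm0 hm1 hG hd0 hd hdd hη hη0 hw hsm
  have hδ : 0 ≤ δ := by linarith
  have hsub : smf T d' ω ⊆ smf T d ω := fun ℓ hℓ => by
    obtain ⟨h1, h2, h3⟩ := mem_smf.1 hℓ
    exact mem_smf.2 ⟨h1, h2, H45.Small.mono hdd h3⟩
  unfold SfQ
  rw [← Finset.sum_sdiff hsub, add_sub_cancel_right]
  refine (Finset.abs_sum_le_sum_abs _ _).trans ?_
  have hmem : ∀ ℓ ∈ smf T d ω \ smf T d' ω, G η ℓ ≠ 0 →
      ℓ ∈ (pcs ω D).filter (fun A => ¬ Small d' A) ∧ G η ℓ = mass D p η ℓ := by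
    intro ℓ hℓ hne
    obtain ⟨h1, h2⟩ := Finset.mem_sdiff.1 hℓ
    obtain ⟨h3, h4, h5⟩ := mem_smf.1 h1
    have h6 := mem_snk_of hG hd hw hη h3 h5 hne
    obtain ⟨h7, -, -, -, h8, -⟩ := snk_spec hG hd h6
    exact ⟨Finset.mem_filter.2 ⟨h7, fun h9 => h2 (mem_smf.2 ⟨h3, h4, h9⟩)⟩,
      (mass_nearR hG hδ h3 h8 hη).symm⟩
  calc ∑ ℓ ∈ smf T d ω \ smf T d' ω, |lwm m (G g ℓ + G η ℓ) - lwm m (G g ℓ)|
      ≤ ∑ ℓ ∈ smf T d ω \ smf T d' ω, 2 / Real.cos m * |G η ℓ| := by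
        refine Finset.sum_le_sum fun ℓ hℓ => ?_
        obtain ⟨h1, -⟩ := Finset.mem_sdiff.1 hℓ
        obtain ⟨h3, h4, h5⟩ := mem_smf.1 h1
        exact lwm_lip hm0 hm1 (hsm ℓ h3 h5)
    _ = ∑ ℓ ∈ (smf T d ω \ smf T d' ω).filter (fun ℓ => G η ℓ ≠ 0), 2 / Real.cos m * |mass D p η ℓ| := by
        rw [← Finset.sum_filter_of_ne (p := fun ℓ => G η ℓ ≠ 0) fun ℓ _ hne hcon =>
          hne (by rw [hcon, abs_zero, mul_zero])]
        refine Finset.sum_congr rfl fun ℓ hℓ => ?_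
        obtain ⟨h1, h2⟩ := Finset.mem_filter.1 hℓ
        rw [(hmem ℓ h1 h2).2]
    _ ≤ ∑ A ∈ (pcs ω D).filter (fun A => ¬ Small d' A), 2 / Real.cos m * |mass D p η A| := by
        refine Finset.sum_le_sum_of_subset_of_nonneg (fun ℓ hℓ => ?_) fun _ _ _ =>
            mul_nonneg (div_nonneg (by norm_num) (cos_pos_of hm0 hm1).le) (abs_nonneg _)
        obtain ⟨h1, h2⟩ := Finset.mem_filter.1 hℓ
        exact (hmem ℓ h1 h2).1
    _ = 2 / Real.cos m * bigV D p η d' ω := by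
        unfold bigV
        rw [Finset.mul_sum]

end Vale.Agent.P167.N.H542.Q.PT
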