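import Vale.Agent.P167.N.Kit
import Vale.Agent.P167.N.H542.Q.Fam
import Vale.Agent.P167.N.H542.Q.FamB
import Vale.Agent.P167.N.H562.Q.SM1
import Vale.Agent.P167.N.H662.L.LDefs2
import Vale.Agent.P167.H542.Q.Lw

/-! generated from Vale.Agent.P167.H542.Q.Lw (q < 1 port) -/

set_option autoImplicit false

open Finset MeasureTheory Filter Topology

namespace Vale.Agent.P167.N.H542.Q

open Vale.Agent.P167.H542.Q Vale.Agent.P167.H542

open Vale.Agent.P167 Vale.Agent.P167.BR Vale.Agent.P167.H542 Vale.Agent.P167.FK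

open Vale.Agent.P167.H519 (IsLim)

open Vale.Agent.P167.H562.SML (smf mem_smf)

open Vale.Agent.P167.H562.GL (Nu)

open Vale.Agent.P167.H45 (vs_nonempty)

open Vale.Agent.P167.H662.L (S_mean)

/-- The laws of the family of the functionals. -/
theorem lawV {S : CA.Dat} {Q m c : ℝ} {P : Measure Cfg} (hQ : 0 < Q) (hQ1 : Kit Q)
    (hP : IsLim Q P) (hm0 : 0 ≤ m) (hm1 : Ang m) (hc : 0 < c) (X : FD S Q m c)
    (s : ℝ) (hp : ∀ᶠ n in X.L, X.p n = S.b n) :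
    Vale.Agent.P167.N.H662.L.LawV S P X.L (fun n f => ((fam hQ X s).Vc n fun z => (f z : ℂ)).re) := by
  have hQ1_pos := hQ1.pos
  have hm1_lt := hm1.lt
  refine ⟨m, c, hm0, hm1, hc, ?_⟩
  filter_upwards [X.good, X.phs, hp] with n h1 h2 h3
  obtain ⟨ν, hν, h4⟩ := Vale.Agent.P167.N.H562.QM.exists_nuEx hQ1 hP h1 (S.D n) (S.D n)
  refine ⟨X.th n, ν, h2, hν, fun f => ?_⟩
  have h5 := h4 _ (loc_XR (X.th n) (S.D n) (S.b n) f)
  show (VQ Q (S.D n) (X.η n) (X.th n) (X.p n) fun z => (f z : ℂ)).re = _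
  rw [VQ_ofReal, Complex.ofReal_re, h3, ← h5]
  rfl

/-- **The laws of the family of the Dobrushin functionals.** -/
theorem lawN {S : CA.Dat} {θ β : ℝ} (X : BD S θ β) (h0 : 0 < θ) (h1 : Ang θ)
    (hβ : Real.cos (θ / 2 + β) = Real.sin θ) {P : Measure Cfg}
    (hP : IsLim (2 * Real.cos θ) P) (hp : ∀ᶠ n in X.L, X.q n 0 = S.b n) :
    Vale.Agent.P167.N.H662.L.LawV S P (X.famN h0 h1 hβ).L (fun n f => ((X.famN h0 h1 hβ).Vc n fun z => (f z : ℂ)).re) :=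
  N.H542.Q.lawV (BD.cos_pos h0 h1) (BD.one_le h0 h1) hP h0.le h1 (cB_pos h0 h1) (X.fdN h0 h1 hβ) _ hp

end Vale.Agent.P167.N.H542.Q

/-- Dot notation: `X.lawN` is the version for `Ang θ` of `X.lawV`. -/
theorem Vale.Agent.P167.H542.Q.BD.lawN {S : Vale.Agent.P167.CA.Dat} {θ β : ℝ}
    (X : Vale.Agent.P167.H542.Q.BD S θ β) (h0 : 0 < θ) (h1 : Vale.Agent.P167.N.Ang θ)
    (hβ : Real.cos (θ / 2 + β) = Real.sin θ) {P : Measure Vale.Agent.P167.Cfg}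
    (hP : Vale.Agent.P167.H519.IsLim (2 * Real.cos θ) P)
    (hp : ∀ᶠ n in X.L, X.q n 0 = S.b n) :
    Vale.Agent.P167.N.H662.L.LawV S P (X.famN h0 h1 hβ).L
      (fun n f => ((X.famN h0 h1 hβ).Vc n fun z => (f z : ℂ)).re) :=
  Vale.Agent.P167.N.H542.Q.lawN X h0 h1 hβ hP hp
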